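import Mathlib.Analysis.InnerProductSpace.Completion
import Mathlib.Analysis.InnerProductSpace.Dual
import Mathlib.Analysis.InnerProductSpace.Projection.Basic
import Mathlib.Analysis.Normed.Operator.Extend
import Mathlib.Analysis.LocallyConvex.HahnBanach

/-!
# Row 261, package JET (helper6), file `Abs`: abstract Hilbert space steps

`S` a complex vector space with semi-inner products `c : PC S`, `pn c` the seminorm.

* `FR c T Ts` : Friedrichs' density property, stated without completions;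
* `hahn` : Hahn-Banach for a semi-inner product;
* `harm_fun` : approximate harmonic part of a bounded closed functional;
* `mono_fun`, `hl_abs` : increasing inner products, the curvature loss disappears;
* `exists_ulim` : weak limits along an ultrafilter in a Hilbert space.
-/

set_option autoImplicit false
set_option linter.style.haveILetI false

open Filter Topology
open scoped InnerProductSpace ComplexConjugate

noncomputable section

namespace Crest.Agent.X261.Jet.Abs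

/-- semi-inner products -/
abbrev PC (S : Type*) [AddCommGroup S] [Module ℂ S] : Type _ := PreInnerProductSpace.Core ℂ S

variable {S : Type*} [AddCommGroup S] [Module ℂ S]

/-- the seminorm of a semi-inner product -/
def pn (c : PC S) (u : S) : ℝ := Real.sqrt (c.inner u u).re

theorem pn_nonneg (c : PC S) (u : S) : 0 ≤ pn c u := Real.sqrt_nonneg _

theorem pn_sq (c : PC S) (u : S) : pn c u ^ 2 = (c.inner u u).re :=
  Real.sq_sqrt (c.re_inner_nonneg u)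

theorem pn_cs (c : PC S) (u v : S) : ‖c.inner u v‖ ≤ pn c u * pn c v := by
  letI : SeminormedAddCommGroup S := InnerProductSpace.Core.toSeminormedAddCommGroup (c := c)
  letI : InnerProductSpace ℂ S := .ofCore c
  exact norm_inner_le_norm (𝕜 := ℂ) u v

theorem pn_add_le (c : PC S) (u v : S) : pn c (u + v) ≤ pn c u + pn c v := by
  letI : SeminormedAddCommGroup S := InnerProductSpace.Core.toSeminormedAddCommGroup (c := c)
  exact norm_add_le u v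



theorem pn_smul (c : PC S) (a : ℂ) (u : S) : pn c (a • u) = ‖a‖ * pn c u := by
  letI : SeminormedAddCommGroup S := InnerProductSpace.Core.toSeminormedAddCommGroup (c := c)
  letI : InnerProductSpace ℂ S := .ofCore c
  exact norm_smul a u

theorem inner_sub_l (c : PC S) (u v w : S) : c.inner (u - v) w = c.inner u w - c.inner v w := by
  letI : SeminormedAddCommGroup S := InnerProductSpace.Core.toSeminormedAddCommGroup (c := c)
  letI : InnerProductSpace ℂ S := .ofCore c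
  exact inner_sub_left (𝕜 := ℂ) u v w

/-- the seminorm as a `Seminorm` -/
def ps (c : PC S) (B : ℝ) (hB : 0 ≤ B) : Seminorm ℂ S :=
  Seminorm.of (fun u => B * pn c u)
    (fun u v => by
      have := mul_le_mul_of_nonneg_left (pn_add_le c u v) hB
      linarith)
    (fun a u => by rw [pn_smul]; ring)

/-- **Hahn-Banach** -/
theorem hahn (c : PC S) (W : Submodule ℂ S) (l : S →ₗ[ℂ] ℂ) {B : ℝ} (hB : 0 ≤ B)
    (h : ∀ w ∈ W, ‖l w‖ ≤ B * pn c w) :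
    ∃ Y : S →ₗ[ℂ] ℂ, (∀ w ∈ W, Y w = l w) ∧ ∀ w, ‖Y w‖ ≤ B * pn c w := by
  obtain ⟨Y, h1, h2⟩ := Module.Dual.exists_extension_of_le_seminorm W (l.comp W.subtype)
    (p := ps c B hB) fun x => h x x.2
  exact ⟨Y, fun w hw => h1 ⟨w, hw⟩, h2⟩

/-- **Friedrichs' property**: a Cauchy sequence `x` with `T x = a`, `Ts x = b` weakly is
approximated by one vector `v` with `T v` close to `a` and `Ts v` close to `b`. -/
def FR (c : PC S) (T Ts : S → S) : Prop :=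
  ∀ (x : ℕ → S) (a b : S), (∀ ε > 0, ∃ N, ∀ k ≥ N, ∀ l ≥ N, pn c (x k - x l) ≤ ε) →
    (∀ w, Tendsto (fun k => c.inner (Ts w) (x k)) atTop (𝓝 (c.inner w a))) →
    (∀ w, Tendsto (fun k => c.inner (T w) (x k)) atTop (𝓝 (c.inner w b))) →
    ∀ τ > 0, ∃ v, (∀ᶠ k in atTop, pn c (v - x k) ≤ τ) ∧ pn c (T v - a) ≤ τ ∧ pn c (Ts v - b) ≤ τ

/-- the special case `a = b = 0` -/
def FR0 (c : PC S) (T Ts : S → S) : Prop :=
  ∀ x : ℕ → S, (∀ ε > 0, ∃ N, ∀ k ≥ N, ∀ l ≥ N, pn c (x k - x l) ≤ ε) →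
    (∀ w, Tendsto (fun k => c.inner (Ts w) (x k)) atTop (𝓝 0)) →
    (∀ w, Tendsto (fun k => c.inner (T w) (x k)) atTop (𝓝 0)) →
    ∀ τ > 0, ∃ v, (∀ᶠ k in atTop, pn c (v - x k) ≤ τ) ∧ pn c (T v) ≤ τ ∧ pn c (Ts v) ≤ τ

theorem inner_zero_r (c : PC S) (w : S) : c.inner w 0 = 0 := by
  letI : SeminormedAddCommGroup S := InnerProductSpace.Core.toSeminormedAddCommGroup (c := c)
  letI : InnerProductSpace ℂ S := .ofCore c
  exact inner_zero_right (𝕜 := ℂ) w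

theorem FR.zero {c : PC S} {T Ts : S → S} (h : FR c T Ts) : FR0 c T Ts := by
  intro x h1 h2 h3 τ hτ
  simpa using h x 0 0 h1 (fun w => by rw [inner_zero_r]; exact h2 w)
    (fun w => by rw [inner_zero_r]; exact h3 w) τ hτ

/-- the output of `harm_fun` -/
structure Hm (c : PC S) (T : S →ₗ[ℂ] S) (Ts : S → S) (Λ : S → ℂ) (B τ : ℝ) (v u : S) : Prop where
  t : pn c (T v) ≤ τ
  ts : pn c (Ts v) ≤ τ
  bd : pn c v ≤ B + τ
  rep : ∀ w, ‖Λ w - c.inner (v + T u) w‖ ≤ τ * pn c w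
  perp : ∀ w, ‖c.inner (T w) v‖ ≤ τ * pn c (T w)

theorem harm_step {S : Type*} [SeminormedAddCommGroup S] [InnerProductSpace ℂ S]
    (T : S →ₗ[ℂ] S) (Ts : S → S) (hadj : ∀ u w, ⟪T u, w⟫_ℂ = ⟪u, Ts w⟫_ℂ)
    (hTT : ∀ u, T (T u) = 0)
    (hF : ∀ x : ℕ → S, (∀ ε > 0, ∃ N, ∀ k ≥ N, ∀ l ≥ N, ‖x k - x l‖ ≤ ε) →
      (∀ w, Tendsto (fun k => ⟪Ts w, x k⟫_ℂ) atTop (𝓝 0)) →
      (∀ w, Tendsto (fun k => ⟪T w, x k⟫_ℂ) atTop (𝓝 0)) →
      ∀ τ > 0, ∃ v, (∀ᶠ k in atTop, ‖v - x k‖ ≤ τ) ∧ ‖T v‖ ≤ τ ∧ ‖Ts v‖ ≤ τ)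
    (Λ : S →ₗ[ℂ] ℂ) {B : ℝ} (hB : 0 ≤ B) (hΛ : ∀ w, ‖Λ w‖ ≤ B * ‖w‖) (h0 : ∀ w, Λ (Ts w) = 0)
    {τ : ℝ} (hτ : 0 < τ) :
    ∃ v u : S, ‖T v‖ ≤ τ ∧ ‖Ts v‖ ≤ τ ∧ ‖v‖ ≤ B + τ ∧
      (∀ w, ‖Λ w - ⟪v + T u, w⟫_ℂ‖ ≤ τ * ‖w‖) ∧ ∀ w, ‖⟪T w, v⟫_ℂ‖ ≤ τ * ‖T w‖ := by
  let H := UniformSpace.Completion S
  let ι : S →ₗᵢ[ℂ] H := UniformSpace.Completion.toComplₗᵢ
  have hd : DenseRange ι.toLinearMap := UniformSpace.Completion.denseRange_coe
  have hn : ∀ x, ‖Λ x‖ ≤ B * ‖ι.toLinearMap x‖ := fun x => by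
    rw [LinearIsometry.coe_toLinearMap, ι.norm_map]; exact hΛ x
  set Λ' : H →L[ℂ] ℂ := Λ.extendOfNorm ι.toLinearMap with hΛ'
  have e1 : ∀ x, Λ' (ι x) = Λ x := fun x => LinearMap.extendOfNorm_eq hd ⟨B, hn⟩ x
  set F : H := (InnerProductSpace.toDual ℂ H).symm Λ' with hFd
  have hF1 : ∀ x, ⟪F, ι x⟫_ℂ = Λ x := fun x => by
    rw [hFd, InnerProductSpace.toDual_symm_apply, e1]
  have hF2 : ‖F‖ ≤ B := by
    rw [hFd, LinearIsometryEquiv.norm_map]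
    exact LinearMap.opNorm_extendOfNorm_le hd hB hn
  let K : Submodule ℂ H := ((LinearMap.range T).map ι.toLinearMap).topologicalClosure
  have : CompleteSpace K := (Submodule.isClosed_topologicalClosure _).completeSpace_coe
  have hKT : ∀ z, ι (T z) ∈ K := fun z =>
    Submodule.le_topologicalClosure _ (Submodule.mem_map_of_mem (LinearMap.mem_range_self T z))
  set p : H := K.starProjection F with hp
  have hpK : p ∈ K := Submodule.starProjection_apply_mem _ _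
  have hperp : F - p ∈ Kᗮ := Submodule.sub_starProjection_mem_orthogonal _
  set G : H := F - p with hG
  have hGn : ‖G‖ ≤ B := by
    have h1 : ‖F‖ ^ 2 = ‖G‖ ^ 2 + ‖p‖ ^ 2 := by
      have h2 : F = G + p := by rw [hG]; abel
      have h3 : ⟪G, p⟫_ℂ = 0 := Submodule.inner_left_of_mem_orthogonal hpK hperp
      conv_lhs => rw [h2]
      rw [sq, sq, sq]
      exact norm_add_sq_eq_norm_sq_add_norm_sq_of_inner_eq_zero _ _ h3
    refine le_trans (abs_le_of_sq_le_sq' ?_ (norm_nonneg F)).2 hF2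
    rw [h1]
    nlinarith [sq_nonneg ‖p‖]
  -- `u` with `T u` close to `p`
  obtain ⟨u, hu⟩ : ∃ u, ‖ι (T u) - p‖ < τ / 2 := by
    have hcl : p ∈ closure (((LinearMap.range T).map ι.toLinearMap : Submodule ℂ H) : Set H) := by
      rw [← Submodule.topologicalClosure_coe]; exact hpK
    obtain ⟨_, ⟨_, ⟨u, rfl⟩, rfl⟩, h2⟩ := Metric.mem_closure_iff.1 hcl (τ / 2) (by positivity)
    exact ⟨u, by rw [← dist_eq_norm, dist_comm]; exact h2⟩
  -- a sequence converging to `G`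
  obtain ⟨x', hx', hxG⟩ := mem_closure_iff_seq_limit.1 (hd G)
  choose x hx using hx'
  have hlim : Tendsto (fun k => ι (x k)) atTop (𝓝 G) := hxG.congr fun k => (hx k).symm
  have hw : ∀ z, ⟪ι z, G⟫_ℂ = 0 → Tendsto (fun k => ⟪z, x k⟫_ℂ) atTop (𝓝 0) := by
    intro z hz
    have h1 : Tendsto (fun k => ⟪ι z, ι (x k)⟫_ℂ) atTop (𝓝 ⟪ι z, G⟫_ℂ) :=
      tendsto_const_nhds.inner hlim
    rw [hz] at h1
    exact h1.congr fun k => ι.inner_map_map _ _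
  have hTG : ∀ z, ⟪ι (T z), G⟫_ℂ = 0 := fun z =>
    Submodule.inner_right_of_mem_orthogonal (hKT z) hperp
  have hTs : ∀ z, ⟪ι (Ts z), G⟫_ℂ = 0 := by
    intro z
    have h1 : ι (Ts z) ∈ Kᗮ := by
      rw [Submodule.orthogonal_closure, Submodule.mem_orthogonal]
      rintro _ ⟨_, ⟨y, rfl⟩, rfl⟩
      rw [LinearIsometry.coe_toLinearMap, ι.inner_map_map, ← hadj, hTT, inner_zero_left]
    rw [hG, inner_sub_right, Submodule.inner_left_of_mem_orthogonal hpK h1, ← inner_conj_symm,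
      hF1, h0, map_zero, sub_zero]
  obtain ⟨v, hv1, hv2, hv3⟩ := hF x (fun ε hε => by
      obtain ⟨N, hN⟩ := Metric.cauchySeq_iff.1 hlim.cauchySeq ε hε
      refine ⟨N, fun k hk l hl => ?_⟩
      have := hN k hk l hl
      rw [ι.isometry.dist_eq, dist_eq_norm] at this
      exact this.le)
    (fun w => hw _ (hTs w)) (fun w => hw _ (hTG w)) (τ / 2) (by positivity)
  have hvG : ‖ι v - G‖ ≤ τ / 2 := by
    refine le_of_tendsto (tendsto_const_nhds.sub hlim).norm (hv1.mono fun k hk => ?_)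
    rw [← map_sub, ι.norm_map]
    exact hk
  refine ⟨v, u, by linarith, by linarith, ?_, fun w => ?_, fun w => ?_⟩
  · have h1 := norm_add_le (ι v - G) G
    rw [sub_add_cancel, ι.norm_map] at h1
    linarith
  · rw [← hF1, ← ι.inner_map_map, ← inner_sub_left]
    refine (norm_inner_le_norm _ _).trans ?_
    rw [ι.norm_map]
    refine mul_le_mul_of_nonneg_right ?_ (norm_nonneg _)
    have e2 : F - ι (v + T u) = -((ι v - G) + (ι (T u) - p)) := by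
      rw [map_add, hG]; abel
    rw [e2, norm_neg]
    linarith [norm_add_le (ι v - G) (ι (T u) - p)]
  · have e2 : ⟪T w, v⟫_ℂ = ⟪ι (T w), ι v - G⟫_ℂ := by
      rw [inner_sub_right, hTG, sub_zero, ι.inner_map_map]
    rw [e2]
    refine (norm_inner_le_norm _ _).trans ?_
    rw [ι.norm_map, mul_comm]
    exact mul_le_mul_of_nonneg_right (by linarith) (norm_nonneg _)

/-- **approximate harmonic part** of a bounded functional killing the range of `Ts` -/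
theorem harm_fun (c : PC S) (T : S →ₗ[ℂ] S) (Ts : S → S)
    (hadj : ∀ u w, c.inner (T u) w = c.inner u (Ts w)) (hTT : ∀ u, T (T u) = 0)
    (hF : FR0 c T Ts) (Λ : S →ₗ[ℂ] ℂ) {B : ℝ} (hB : 0 ≤ B) (hΛ : ∀ w, ‖Λ w‖ ≤ B * pn c w)
    (h0 : ∀ w, Λ (Ts w) = 0) {τ : ℝ} (hτ : 0 < τ) : ∃ v u : S, Hm c T Ts Λ B τ v u := by
  letI : SeminormedAddCommGroup S := InnerProductSpace.Core.toSeminormedAddCommGroup (c := c)
  letI : InnerProductSpace ℂ S := .ofCore c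
  obtain ⟨v, u, h1, h2, h3, h4, h5⟩ := harm_step T Ts hadj hTT hF Λ hB hΛ h0 hτ
  exact ⟨v, u, h1, h2, h3, h4, h5⟩

theorem le_of_sq_le_mul {a b : ℝ} (ha : 0 ≤ a) (hb : 0 ≤ b) (h : a ^ 2 ≤ b * a) : a ≤ b := by
  rcases ha.eq_or_lt with h2 | h2
  · rw [← h2]; exact hb
  · nlinarith

/-- almost orthogonal vectors, with an error term -/
theorem pyth (c : PC S) {b t e : S} {τ σ B : ℝ} (hτ : 0 ≤ τ) (hb : pn c b ≤ B)
    (h : ‖c.inner t b‖ ≤ τ * pn c t) (he : pn c e ≤ σ) :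
    pn c b ^ 2 + pn c (t + e) ^ 2 / 2 ≤
      pn c (b + (t + e)) ^ 2 + (2 * τ ^ 2 + 2 * τ * σ + 2 * B * σ) := by
  letI : SeminormedAddCommGroup S := InnerProductSpace.Core.toSeminormedAddCommGroup (c := c)
  letI : InnerProductSpace ℂ S := .ofCore c
  have n0 : ∀ u : S, pn c u = ‖u‖ := fun u => rfl
  simp only [n0] at *
  have h1 := norm_add_sq (𝕜 := ℂ) b (t + e)
  rw [inner_add_right, map_add, inner_re_symm (𝕜 := ℂ) b t] at h1
  have h3 : -(τ * ‖t‖) ≤ RCLike.re (inner ℂ t b) := by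
    have h4 : |RCLike.re (inner ℂ t b)| ≤ ‖inner ℂ t b‖ := RCLike.abs_re_le_norm _
    have h5 : ‖inner ℂ t b‖ ≤ τ * ‖t‖ := h
    linarith [neg_abs_le (RCLike.re (inner ℂ t b))]
  have h6 : -(B * σ) ≤ RCLike.re (inner ℂ b e) := by
    have h4 : |RCLike.re (inner ℂ b e)| ≤ ‖inner ℂ b e‖ := RCLike.abs_re_le_norm _
    have h5 : ‖inner ℂ b e‖ ≤ ‖b‖ * ‖e‖ := norm_inner_le_norm _ _
    have h7 : ‖b‖ * ‖e‖ ≤ B * σ :=
      mul_le_mul hb he (norm_nonneg _) ((norm_nonneg _).trans hb)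
    linarith [neg_abs_le (RCLike.re (inner ℂ b e))]
  have h8 : ‖t‖ ≤ ‖t + e‖ + σ := by
    have := norm_sub_le (t + e) e
    rw [add_sub_cancel_right] at this
    linarith
  have h9 := mul_le_mul_of_nonneg_left h8 hτ
  nlinarith [sq_nonneg (‖t + e‖ - 2 * τ)]

section mono

variable (c : ℕ → PC S) (T : S →ₗ[ℂ] S) (Ts : ℕ → S → S) (Λ : ℕ → S → ℂ)
  (mono : ∀ μ μ', μ ≤ μ' → ∀ u, pn (c μ) u ≤ pn (c μ') u)
  (hR : ∀ μ μ', μ ≤ μ' → ∀ w, ∃ w', (∀ u, (c μ').inner u w' = (c μ).inner u w) ∧ Λ μ' w' = Λ μ w)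

include mono hR

/-- **monotone limit** of approximate harmonic parts -/
theorem mono_fun {B : ℝ} (hB : 0 ≤ B) (τ : ℕ → ℝ) (hτ0 : ∀ μ, 0 ≤ τ μ)
    (hτ : Tendsto τ atTop (𝓝 0)) (v u : ℕ → S)
    (H : ∀ μ, Hm (c μ) T (Ts μ) (Λ μ) B (τ μ) (v μ) (u μ)) {δ : ℝ} (hδ : 0 < δ) :
    ∃ μ0, ∀ μ ≥ μ0, pn (c μ0) (v μ - v μ0) ^ 2 ≤ δ ∧
      pn (c μ) (v μ) ^ 2 - pn (c μ0) (v μ) ^ 2 ≤ δ := by
  set m : ℕ → ℝ := fun μ => pn (c μ) (v μ) ^ 2 with hm
  have herr : ∀ μ ν, μ ≤ ν → pn (c μ) ((v ν + T (u ν)) - (v μ + T (u μ))) ≤ τ μ + τ ν := by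
    intro μ ν h
    set e := (v ν + T (u ν)) - (v μ + T (u μ)) with he
    obtain ⟨w', h1, h2⟩ := hR μ ν h e
    have h3 : pn (c ν) w' ≤ pn (c μ) e := by
      refine le_of_sq_le_mul (pn_nonneg _ _) (pn_nonneg _ _) ?_
      rw [pn_sq, h1]
      refine (Complex.re_le_norm _).trans ((pn_cs _ _ _).trans ?_)
      rw [mul_comm]
      exact mul_le_mul_of_nonneg_left (mono μ ν h _) (pn_nonneg _ _)
    refine le_of_sq_le_mul (pn_nonneg _ _) (add_nonneg (hτ0 _) (hτ0 _)) ?_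
    rw [pn_sq]
    refine (Complex.re_le_norm _).trans ?_
    have e1 : (c μ).inner e e = (Λ μ e - (c μ).inner (v μ + T (u μ)) e) -
        (Λ ν w' - (c ν).inner (v ν + T (u ν)) w') := by
      rw [h1, h2]
      conv_lhs => rw [he, inner_sub_l, ← he]
      ring
    rw [e1]
    refine (norm_sub_le _ _).trans ?_
    have h4 := (H μ).rep e
    have h5 := ((H ν).rep w').trans (mul_le_mul_of_nonneg_left h3 (hτ0 ν))
    linarith
  have key : ∀ μ ν, μ ≤ ν → m μ + pn (c μ) (v ν - v μ) ^ 2 / 2 ≤ pn (c μ) (v ν) ^ 2 +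
      (2 * τ μ ^ 2 + 2 * τ μ * (τ μ + τ ν) + 2 * (B + τ μ) * (τ μ + τ ν)) := by
    intro μ ν h
    have h1 := pyth (c μ) (hτ0 μ) (H μ).bd ((H μ).perp (u μ - u ν)) (herr μ ν h)
    have e1 : T (u μ - u ν) + (v ν + T (u ν) - (v μ + T (u μ))) = v ν - v μ := by
      rw [map_sub]; abel
    rw [e1, add_sub_cancel] at h1
    exact h1
  set σ : ℝ := min 1 (δ / (8 * (10 + 4 * B))) with hσ
  have hσ0 : 0 < σ := lt_min one_pos (by positivity)
  have hσ1 : σ ≤ 1 := min_le_left _ _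
  have hσ2 : σ * (10 + 4 * B) ≤ δ / 8 := by
    have h1 : σ ≤ δ / (8 * (10 + 4 * B)) := min_le_right _ _
    rw [le_div_iff₀ (by positivity)] at h1
    linarith
  obtain ⟨μ1, hμ1⟩ := eventually_atTop.1 (hτ.eventually (eventually_le_nhds hσ0))
  have key2 : ∀ μ ≥ μ1, ∀ ν ≥ μ, m μ + pn (c μ) (v ν - v μ) ^ 2 / 2 ≤
      pn (c μ) (v ν) ^ 2 + δ / 8 := by
    intro μ hμ ν hν
    refine (key μ ν hν).trans (add_le_add le_rfl (le_trans ?_ hσ2))
    have a1 := hμ1 μ hμ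
    have a2 := hμ1 ν (hμ.trans hν)
    have a3 := hτ0 μ
    have a4 := hτ0 ν
    have b1 : τ μ ^ 2 ≤ σ := by nlinarith
    have b2 : τ μ * (τ μ + τ ν) ≤ 2 * σ := by nlinarith
    have b3 : (B + τ μ) * (τ μ + τ ν) ≤ (B + 1) * (2 * σ) :=
      mul_le_mul (by linarith) (by linarith) (by linarith) (by linarith)
    nlinarith
  have hbdd : BddAbove (m '' Set.Ici μ1) := ⟨(B + 1) ^ 2, by
    rintro _ ⟨μ, hμ, rfl⟩
    exact pow_le_pow_left₀ (pn_nonneg _ _) (by linarith [(H μ).bd, hμ1 μ hμ]) 2⟩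
  obtain ⟨_, ⟨μ0, hμ0, rfl⟩, h0⟩ := exists_lt_of_lt_csSup (s := m '' Set.Ici μ1)
    ⟨_, μ1, Set.self_mem_Ici, rfl⟩ (show sSup (m '' Set.Ici μ1) - δ / 8 < _ by linarith)
  refine ⟨μ0, fun μ hμ => ?_⟩
  have a1 : m μ ≤ sSup (m '' Set.Ici μ1) := le_csSup hbdd ⟨μ, le_trans hμ0 hμ, rfl⟩
  have a2 := key2 μ0 hμ0 μ hμ
  have a6 := pow_le_pow_left₀ (pn_nonneg _ _) (mono μ0 μ hμ (v μ)) 2
  simp only [hm] at a1 a2 h0
  constructor
  · linarith
  · nlinarith [sq_nonneg (pn (c μ0) (v μ - v μ0))]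

end mono

/-- **hard Lefschetz, abstract form**.  `q μ` is the curvature loss. -/
theorem hl_abs (c : ℕ → PC S) (T : S →ₗ[ℂ] S) (Ts : ℕ → S → S) (Λ : ℕ → S →ₗ[ℂ] ℂ)
    (mono : ∀ μ μ', μ ≤ μ' → ∀ u, pn (c μ) u ≤ pn (c μ') u)
    (hR : ∀ μ μ', μ ≤ μ' → ∀ w, ∃ w', (∀ u, (c μ').inner u w' = (c μ).inner u w) ∧ Λ μ' w' = Λ μ w)
    (hadj : ∀ μ u w, (c μ).inner (T u) w = (c μ).inner u (Ts μ w)) (hTT : ∀ u, T (T u) = 0)
    (hF : ∀ μ, FR0 (c μ) T (Ts μ)) {B ε Cq : ℝ} (hB : 0 ≤ B) (hε : 0 ≤ ε) (hCq : 0 ≤ Cq)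
    (hΛ : ∀ μ w, ‖Λ μ w‖ ≤ B * pn (c μ) w) (h0 : ∀ μ w, Λ μ (Ts μ w) = 0) (q : ℕ → S → ℝ)
    (hq : ∀ μ0 w, ∀ δ > 0, ∀ᶠ μ in atTop, ∀ v, q μ v ≤ ε * pn (c μ) v ^ 2 + δ +
      Cq * (pn (c μ) v ^ 2 - pn (c μ0) v ^ 2) + Cq * pn (c μ0) (v - w) ^ 2)
    {η : ℝ} (hη : 0 < η) {p : ℕ → Prop} (hp : ∀ᶠ μ in atTop, p μ) :
    ∃ μ v u, p μ ∧ Hm (c μ) T (Ts μ) (Λ μ) B η v u ∧ q μ v ≤ ε * (B + η) ^ 2 + η := by
  have hτ : ∀ μ : ℕ, 0 < min η (1 / ((μ : ℝ) + 1)) := fun μ => lt_min hη (by positivity)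
  choose v u H using fun μ => harm_fun (c μ) T (Ts μ) (hadj μ) hTT (hF μ) (Λ μ) hB (hΛ μ) (h0 μ)
    (hτ μ)
  have ht : Tendsto (fun μ : ℕ => min η (1 / ((μ : ℝ) + 1))) atTop (𝓝 0) :=
    squeeze_zero (fun μ => (hτ μ).le) (fun μ => min_le_right _ _)
      tendsto_one_div_add_atTop_nhds_zero_nat
  set δ : ℝ := η / (1 + 2 * Cq) with hδ
  have hδ0 : 0 < δ := by positivity
  obtain ⟨μ0, hμ0⟩ := mono_fun c T Ts (fun μ => Λ μ) mono hR hB _ (fun μ => (hτ μ).le) ht v u H hδ0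
  obtain ⟨μ, h1, h2, h3⟩ := ((eventually_ge_atTop μ0).and ((hq μ0 (v μ0) δ hδ0).and hp)).exists
  have hle : min η (1 / ((μ : ℝ) + 1)) ≤ η := min_le_left _ _
  have hb : pn (c μ) (v μ) ≤ B + η := by linarith [(H μ).bd]
  refine ⟨μ, v μ, u μ, h3, ⟨(H μ).t.trans hle, (H μ).ts.trans hle, hb,
    fun w => ((H μ).rep w).trans (mul_le_mul_of_nonneg_right hle (pn_nonneg _ _)),
    fun w => ((H μ).perp w).trans (mul_le_mul_of_nonneg_right hle (pn_nonneg _ _))⟩, ?_⟩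
  have a1 := h2 (v μ)
  obtain ⟨a2, a3⟩ := hμ0 μ h1
  have a4 := mul_le_mul_of_nonneg_left (pow_le_pow_left₀ (pn_nonneg _ _) hb 2) hε
  have a5 := mul_le_mul_of_nonneg_left a2 hCq
  have a6 := mul_le_mul_of_nonneg_left a3 hCq
  have a7 : δ * (1 + 2 * Cq) = η := div_mul_cancel₀ _ (by positivity)
  nlinarith

/-- weak limits of bounded families along an ultrafilter -/
theorem exists_ulim {H : Type*} [NormedAddCommGroup H] [InnerProductSpace ℂ H] [CompleteSpace H]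
    {ι : Type*} (U : Ultrafilter ι) (x : ι → H) {C : ℝ} (hC : 0 ≤ C)
    (hx : ∀ᶠ j in (U : Filter ι), ‖x j‖ ≤ C) :
    ∃ y : H, ‖y‖ ≤ C ∧ ∀ w, Tendsto (fun j => ⟪x j, w⟫_ℂ) U (𝓝 ⟪y, w⟫_ℂ) := by
  have h1 : ∀ w : H, ∃ a : ℂ, ‖a‖ ≤ C * ‖w‖ ∧ Tendsto (fun j => ⟪x j, w⟫_ℂ) U (𝓝 a) := by
    intro w
    obtain ⟨a, ha, h⟩ := (isCompact_closedBall (0 : ℂ) (C * ‖w‖)).ultrafilter_le_nhds'
      (U.map fun j => ⟪x j, w⟫_ℂ) (by
        rw [Ultrafilter.mem_map]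
        filter_upwards [hx] with j hj
        rw [Set.mem_preimage, mem_closedBall_zero_iff]
        exact (norm_inner_le_norm _ _).trans (mul_le_mul_of_nonneg_right hj (norm_nonneg _)))
    exact ⟨a, mem_closedBall_zero_iff.1 ha, h⟩
  choose a ha hl using h1
  let l : H →ₗ[ℂ] ℂ :=
    { toFun := a
      map_add' := fun w w' => tendsto_nhds_unique (hl (w + w'))
        (((hl w).add (hl w')).congr fun j => (inner_add_right _ _ _).symm)
      map_smul' := fun r w => tendsto_nhds_unique (hl (r • w))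
        (((hl w).const_mul r).congr fun j => (inner_smul_right _ _ _).symm) }
  refine ⟨(InnerProductSpace.toDual ℂ H).symm (l.mkContinuous C ha), ?_, fun w => ?_⟩
  · rw [LinearIsometryEquiv.norm_map]
    exact LinearMap.mkContinuous_norm_le _ hC _
  · rw [InnerProductSpace.toDual_symm_apply]
    exact hl w

end Crest.Agent.X261.Jet.Abs
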