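import Crest.Agent.X261.Top.Defs
import Crest.Agent.R273.GamR_155
import Crest.Agent.R273.LamN_127

/-!
# Row 261, JET/Tube (helper66), file `TbA`: linear algebra of decomposable forms

* `wdg_eq`, `wdg_cons`, `eW_wdg`, `Gam_wdg`, `wdg_ne_zero`;
* `Dg p τ` : homogeneous of degree `p`; `prj p τ` : the part of degree `p`;
* `eq_smul_wdg` : a `p`-form killed by all `v j ∧ ·` is a multiple of `v 1 ∧ … ∧ v p`;
* `eq_smul_Sbi` : the same for polyvectors; `iW_Sbi`, `Gam_Sbi`.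
-/

set_option autoImplicit false
set_option linter.unusedSectionVars false

open Finset Matrix

namespace Crest.Agent.X261.Jet.Tb

open Crest.Agent.R275.Kos798 Crest.Agent.R273.Fock_243 Crest.Agent.R273.GamR_155
open Crest.Agent.R273.Berezin_505 (Sb Sbi Sb_skew' Sbi_skew Sbi_mul_Sb Sb_mul_Sbi Sb_mulVec
  Sbi_mulVec mul_Sbi_of_inv)
open Crest.Agent.X261.Top (wdg)

noncomputable section

variable {n p : ℕ}

/-! ### degrees -/

/-- homogeneous of degree `p` -/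
def Dg (p : ℕ) (τ : FI n → ℂ) : Prop := ∀ S, S.card ≠ p → τ S = 0

/-- the part of degree `p` -/
def prj (p : ℕ) (τ : FI n → ℂ) : FI n → ℂ := fun S => if S.card = p then τ S else 0

theorem dg_prj (p : ℕ) (τ : FI n → ℂ) : Dg p (prj p τ) := fun _ h => if_neg h

theorem Dg.prj_eq {τ : FI n → ℂ} (h : Dg p τ) : prj p τ = τ := by
  funext S
  unfold prj
  split_ifs with hS
  · rfl
  · exact (h S hS).symm

theorem Dg.smul {τ : FI n → ℂ} (h : Dg p τ) (c : ℂ) : Dg p (c • τ) := fun S hS => by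
  rw [Pi.smul_apply, h S hS, smul_zero]

theorem Dg.sub {τ σ : FI n → ℂ} (h : Dg p τ) (h' : Dg p σ) : Dg p (τ - σ) := fun S hS => by
  rw [Pi.sub_apply, h S hS, h' S hS, sub_zero]

theorem prj_smul (c : ℂ) (τ : FI n → ℂ) : prj p (c • τ) = c • prj p τ := by
  funext S
  simp only [prj, Pi.smul_apply, smul_eq_mul]
  split_ifs <;> simp

theorem prj_sub (τ σ : FI n → ℂ) : prj p (τ - σ) = prj p τ - prj p σ := by
  funext S
  simp only [prj, Pi.sub_apply]
  split_ifs <;> simp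

theorem prj_zero : prj p (0 : FI n → ℂ) = 0 := by
  funext S
  simp [prj]

theorem iW_apply (w : Fin n → ℂ) (τ : FI n → ℂ) (S : FI n) :
    (iW w *ᵥ τ) S = ∑ j, if j ∈ S then 0 else sgn ℂ j S * w j * τ (insert j S) := by
  unfold iW
  rw [K_mulVec]
  unfold op cf tog
  refine Finset.sum_congr rfl fun j _ => ?_
  split_ifs <;> simp

theorem eW_apply (w : Fin n → ℂ) (τ : FI n → ℂ) (S : FI n) :
    (eW w *ᵥ τ) S = ∑ j, if j ∈ S then sgn ℂ j S * w j * τ (S.erase j) else 0 := by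
  unfold eW
  rw [K_mulVec]
  unfold op cf tog
  refine Finset.sum_congr rfl fun j _ => ?_
  split_ifs <;> simp

theorem iW_prj_succ (w : Fin n → ℂ) (τ : FI n → ℂ) :
    iW w *ᵥ prj (p + 1) τ = prj p (iW w *ᵥ τ) := by
  funext S
  unfold prj
  rw [iW_apply, iW_apply]
  split_ifs with hS
  · refine Finset.sum_congr rfl fun j _ => ?_
    by_cases hj : j ∈ S
    · simp [hj]
    · rw [if_neg hj, if_neg hj, if_pos (by rw [card_insert_of_notMem hj, hS])]
  · refine Finset.sum_eq_zero fun j _ => ?_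
    by_cases hj : j ∈ S
    · simp [hj]
    · rw [if_neg hj, if_neg (by rw [card_insert_of_notMem hj]; omega), mul_zero]

theorem iW_prj_zero (w : Fin n → ℂ) (τ : FI n → ℂ) : iW w *ᵥ prj 0 τ = 0 := by
  funext S
  unfold prj
  rw [iW_apply]
  refine Finset.sum_eq_zero fun j _ => ?_
  by_cases hj : j ∈ S
  · simp [hj]
  · rw [if_neg hj, if_neg (by rw [card_insert_of_notMem hj]; omega), mul_zero]

theorem iW_prj {w : Fin n → ℂ} {τ : FI n → ℂ} (h : iW w *ᵥ τ = 0) (r : ℕ) :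
    iW w *ᵥ prj r τ = 0 := by
  cases r with
  | zero => exact iW_prj_zero w τ
  | succ r => rw [iW_prj_succ, h, prj_zero]

theorem Dg.iW {τ : FI n → ℂ} (h : Dg (p + 1) τ) (w : Fin n → ℂ) : Dg p (iW w *ᵥ τ) := by
  rw [← h.prj_eq, iW_prj_succ]
  exact dg_prj _ _

theorem Gam_prj (B : Matrix (Fin n) (Fin n) ℂ) (τ : FI n → ℂ) :
    Gam B *ᵥ prj p τ = prj p (Gam B *ᵥ τ) := by
  funext S
  simp only [prj, Matrix.mulVec, dotProduct]
  split_ifs with hS
  · refine Finset.sum_congr rfl fun T _ => ?_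
    split_ifs with hT
    · rfl
    · rw [Gam_of_ne B (by rw [hS]; exact fun h => hT h.symm), zero_mul, zero_mul]
  · refine Finset.sum_eq_zero fun T _ => ?_
    split_ifs with hT
    · rw [Gam_of_ne B (by rw [hT]; exact hS), zero_mul]
    · rw [mul_zero]

theorem Dg.Gam {τ : FI n → ℂ} (h : Dg p τ) (B : Matrix (Fin n) (Fin n) ℂ) : Dg p (Gam B *ᵥ τ) := by
  rw [← h.prj_eq, Gam_prj]
  exact dg_prj _ _

theorem star_prj (τ : FI n → ℂ) : star (prj p τ) = prj p (star τ) := by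
  funext S
  simp only [prj, Pi.star_apply]
  split_ifs <;> simp

theorem dot_prj (σ τ : FI n → ℂ) : σ ⬝ᵥ prj p τ = prj p σ ⬝ᵥ τ := by
  simp only [dotProduct, prj]
  refine Finset.sum_congr rfl fun S _ => ?_
  split_ifs <;> simp


/-- pairing with a homogeneous element only sees the part of the same degree -/
theorem pair_prj {τ : FI n → ℂ} (h : Dg p τ) (B : Matrix (Fin n) (Fin n) ℂ) (σ : FI n → ℂ) :
    star (prj p σ) ⬝ᵥ (Gam B *ᵥ τ) = star σ ⬝ᵥ (Gam B *ᵥ τ) := by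
  rw [star_prj, ← dot_prj, (h.Gam B).prj_eq]

theorem pair_prj' {τ : FI n → ℂ} (h : Dg p τ) (B : Matrix (Fin n) (Fin n) ℂ) (σ : FI n → ℂ) :
    star τ ⬝ᵥ (Gam B *ᵥ prj p σ) = star τ ⬝ᵥ (Gam B *ᵥ σ) := by
  rw [Gam_prj, dot_prj, ← star_prj, h.prj_eq]

/-- orthogonal decomposition -/
theorem pair_split (B : Matrix (Fin n) (Fin n) ℂ) (σ : FI n → ℂ) :
    star σ ⬝ᵥ (Gam B *ᵥ σ) = star (prj p σ) ⬝ᵥ (Gam B *ᵥ prj p σ) +
      star (σ - prj p σ) ⬝ᵥ (Gam B *ᵥ (σ - prj p σ)) := by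
  have h1 := pair_prj (dg_prj p σ) B σ
  have h2 := pair_prj' (dg_prj p σ) B σ
  rw [star_sub, Matrix.mulVec_sub, sub_dotProduct, dotProduct_sub, dotProduct_sub, ← h1, ← h2]
  ring

theorem Dg.eq_zero {τ : FI n → ℂ} (h : Dg 0 τ) : τ = τ ∅ • Pi.single ∅ 1 := by
  funext S
  by_cases hS : S = ∅
  · subst hS; simp
  · rw [h S (fun h' => hS (card_eq_zero.1 h')), Pi.smul_apply, Pi.single_eq_of_ne hS, smul_zero]

/-! ### the wedge product of covectors -/

theorem dg_wdg (v : Fin p → Fin n → ℂ) : Dg p (wdg v) := fun _ h => dif_neg h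

theorem emb_univ (p : ℕ) :
    ((univ : Finset (Fin p)).orderEmbOfFin (card_fin p) : Fin p → Fin p) = id :=
  (Finset.orderEmbOfFin_unique _ (fun _ => mem_univ _) strictMono_id).symm

theorem wdg_eq (v : Fin p → Fin n → ℂ) :
    wdg v = GamR (Matrix.of v)ᵀ *ᵥ Pi.single univ 1 := by
  funext S
  rw [Matrix.mulVec_single_one, Matrix.col_apply]
  by_cases h : S.card = p
  · rw [GamR_eq _ h (card_fin p), ← Matrix.det_transpose]
    unfold wdg
    rw [dif_pos h]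
    congr 1
    ext k l
    simp only [Matrix.of_apply, Matrix.transpose_apply, Matrix.submatrix_apply, emb_univ, id]
  · rw [GamR_of_ne _ (by rwa [card_fin]), dg_wdg v S h]

theorem wdg_nil (v : Fin 0 → Fin n → ℂ) : wdg v = Pi.single ∅ 1 := by
  funext S
  by_cases hS : S = ∅
  · subst hS
    unfold wdg
    rw [dif_pos card_empty, Matrix.det_isEmpty, Pi.single_eq_same]
  · rw [dg_wdg v S (fun h' => hS (card_eq_zero.1 h')), Pi.single_eq_of_ne hS]

theorem wdg_cons (v : Fin (p + 1) → Fin n → ℂ) :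
    wdg v = eW (v 0) *ᵥ wdg fun k => v k.succ := by
  set T : FI (p + 1) := (univ : Finset (Fin p)).map (Fin.succEmb p) with hT
  have h1 : ∀ k ∈ T, (0 : Fin (p + 1)) < k := by
    intro k hk
    obtain ⟨j, -, rfl⟩ := Finset.mem_map.1 hk
    exact Fin.succ_pos j
  have h2 : (univ : FI (p + 1)) = insert 0 T := by
    ext k
    simp only [mem_univ, mem_insert, true_iff]
    rcases Fin.eq_zero_or_eq_succ k with h | ⟨j, rfl⟩
    · exact Or.inl h
    · exact Or.inr (Finset.mem_map.2 ⟨j, mem_univ _, rfl⟩)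
  have hc : T.card = p := by rw [hT, card_map, card_fin]
  have h3 : (T.orderEmbOfFin hc : Fin p → Fin (p + 1)) = Fin.succ :=
    (Finset.orderEmbOfFin_unique hc (f := Fin.succ)
      (fun j => Finset.mem_map.2 ⟨j, mem_univ _, rfl⟩) Fin.strictMono_succ).symm
  rw [wdg_eq v, h2, GamR_mulVec_insert _ h1]
  congr 1
  funext S
  rw [Matrix.mulVec_single_one, Matrix.col_apply]
  by_cases h : S.card = p
  · rw [GamR_eq _ h hc, ← Matrix.det_transpose]
    unfold wdg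
    rw [dif_pos h]
    congr 1
    ext k l
    simp only [Matrix.of_apply, Matrix.transpose_apply, Matrix.submatrix_apply, h3]
  · rw [GamR_of_ne _ (by rwa [hc]), dg_wdg _ S h]

theorem eW_top (u : Fin p → ℂ) : eW u *ᵥ (Pi.single univ 1 : FI p → ℂ) = 0 := by
  funext S
  rw [eW_apply]
  refine Finset.sum_eq_zero fun j _ => ?_
  split_ifs with hj
  · rw [Pi.single_eq_of_ne, mul_zero]
    intro h
    have : j ∈ S.erase j := h ▸ mem_univ j
    simp at this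
  · rfl

/-- a combination of the `v j` kills `v 1 ∧ … ∧ v p` -/
theorem eW_wdg_comb (v : Fin p → Fin n → ℂ) (c : Fin p → ℂ) :
    eW (fun a => ∑ k, c k * v k a) *ᵥ wdg v = 0 := by
  have h1 : (fun a => ∑ k, c k * v k a) = (Matrix.of v)ᵀ *ᵥ c := by
    funext a
    simp [Matrix.mulVec, dotProduct, mul_comm]
  rw [h1, wdg_eq, Matrix.mulVec_mulVec, ← GamR_eW, ← Matrix.mulVec_mulVec, eW_top,
    Matrix.mulVec_zero]

theorem eW_wdg (v : Fin p → Fin n → ℂ) (j : Fin p) : eW (v j) *ᵥ wdg v = 0 := by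
  have h := eW_wdg_comb v (Pi.single j 1)
  have h1 : (fun a => ∑ k, (Pi.single j 1 : Fin p → ℂ) k * v k a) = v j := by
    funext a
    simp [Pi.single_apply]
  rwa [h1] at h

theorem GamR_wdg {m : ℕ} (B : Matrix (Fin m) (Fin n) ℂ) (v : Fin p → Fin n → ℂ) :
    GamR B *ᵥ wdg v = wdg fun k => B *ᵥ v k := by
  rw [wdg_eq, wdg_eq, Matrix.mulVec_mulVec, ← GamR_mul]
  rfl

theorem Gam_wdg (B : Matrix (Fin n) (Fin n) ℂ) (v : Fin p → Fin n → ℂ) :
    Gam B *ᵥ wdg v = wdg fun k => B *ᵥ v k := GamR_wdg B v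

/-- `w` is a dual family of `v` -/
def Dual (v w : Fin p → Fin n → ℂ) : Prop :=
  ∀ j k, ∑ a, v j a * w k a = if j = k then 1 else 0

theorem Dual.tail {v w : Fin (p + 1) → Fin n → ℂ} (h : Dual v w) :
    Dual (fun k => v k.succ) fun k => w k.succ := fun j k => by
  simpa using h j.succ k.succ

theorem wdg_ne_zero {v w : Fin p → Fin n → ℂ} (h : Dual v w) : wdg v ≠ 0 := by
  intro h0
  have h1 : (Matrix.of w) * (Matrix.of v)ᵀ = 1 := by
    ext k j
    rw [Matrix.mul_apply, Matrix.one_apply]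
    have := h j k
    simp only [Matrix.of_apply, Matrix.transpose_apply, mul_comm (w k _)]
    rw [this]
    simp only [eq_comm]
  have h2 : GamR (Matrix.of w) *ᵥ wdg v = Pi.single univ 1 := by
    rw [wdg_eq, Matrix.mulVec_mulVec, ← GamR_mul, h1, GamR_one, Matrix.one_mulVec]
  rw [h0, Matrix.mulVec_zero] at h2
  simpa using congrFun h2 univ

/-- **a `p`-form killed by all `v j ∧ ·` is a multiple of `v 1 ∧ … ∧ v p`** -/
theorem eq_smul_wdg : ∀ {p : ℕ} {v w : Fin p → Fin n → ℂ}, Dual v w → ∀ {τ : FI n → ℂ}, Dg p τ →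
    (∀ j, eW (v j) *ᵥ τ = 0) → ∃ c : ℂ, τ = c • wdg v
  | 0, v, _, _, τ, hτ, _ => ⟨τ ∅, by rw [wdg_nil]; exact hτ.eq_zero⟩
  | p + 1, v, w, h, τ, hτ, h0 => by
    have h1 : ∀ j, iW (w 0) *ᵥ (eW (v j) *ᵥ τ) + eW (v j) *ᵥ (iW (w 0) *ᵥ τ) =
        (if j = 0 then (1 : ℂ) else 0) • τ := fun j => by
      rw [Matrix.mulVec_mulVec, Matrix.mulVec_mulVec, ← Matrix.add_mulVec, iW_eW, h j 0,
        Matrix.smul_mulVec, Matrix.one_mulVec]
    obtain ⟨c, hc⟩ := eq_smul_wdg h.tail (hτ.iW (w 0)) fun j => by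
      have h2 := h1 j.succ
      rwa [h0, Matrix.mulVec_zero, zero_add, if_neg (Fin.succ_ne_zero j), zero_smul] at h2
    refine ⟨c, ?_⟩
    have h2 := h1 0
    rw [h0, Matrix.mulVec_zero, zero_add, if_pos rfl, one_smul, hc, Matrix.mulVec_smul,
      ← wdg_cons] at h2
    exact h2.symm


/-! ### polyvectors -/

theorem iW_Sbi (u : Fin n → ℂ) (τ : FI n → ℂ) :
    iW u *ᵥ (Sbi ℂ n *ᵥ τ) = - (Sbi ℂ n *ᵥ (eW u *ᵥ τ)) := by
  have h := Sbi_skew (R := ℂ) (0 : Fin n → ℂ) u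
  rw [K_transpose] at h
  rw [Matrix.mulVec_mulVec, Matrix.mulVec_mulVec, ← Matrix.neg_mulVec]
  congr 1
  exact eq_neg_of_add_eq_zero_right h

theorem eW_Sb (u : Fin n → ℂ) (V : FI n → ℂ) :
    eW u *ᵥ (Sb ℂ n *ᵥ V) = - (Sb ℂ n *ᵥ (iW u *ᵥ V)) := by
  have h := Sb_skew' (R := ℂ) (0 : Fin n → ℂ) u
  rw [Matrix.mulVec_mulVec, Matrix.mulVec_mulVec, ← Matrix.neg_mulVec]
  congr 1
  exact eq_neg_of_add_eq_zero_left h

theorem Sbi_Sb (V : FI n → ℂ) : Sbi ℂ n *ᵥ (Sb ℂ n *ᵥ V) = V := by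
  rw [Matrix.mulVec_mulVec, Sbi_mul_Sb, Matrix.one_mulVec]

theorem Sb_Sbi (V : FI n → ℂ) : Sb ℂ n *ᵥ (Sbi ℂ n *ᵥ V) = V := by
  rw [Matrix.mulVec_mulVec, Sb_mul_Sbi, Matrix.one_mulVec]

theorem Sbi_eq_zero {τ : FI n → ℂ} (h : Sbi ℂ n *ᵥ τ = 0) : τ = 0 := by
  rw [← Sb_Sbi τ, h, Matrix.mulVec_zero]

theorem Dg.Sb {r : ℕ} (hr : p + r = n) {V : FI n → ℂ} (h : Dg r V) : Dg p (Sb ℂ n *ᵥ V) := by
  intro S hS
  rw [Sb_mulVec, h, mul_zero]
  have := Finset.card_add_card_compl S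
  rw [Fintype.card_fin] at this
  omega

theorem Dg.Sbi {r : ℕ} (hr : p + r = n) {τ : FI n → ℂ} (h : Dg p τ) : Dg r (Sbi ℂ n *ᵥ τ) := by
  intro S hS
  rw [Sbi_mulVec, h, mul_zero]
  have := Finset.card_add_card_compl S
  rw [Fintype.card_fin] at this
  omega

/-- **a polyvector of degree `n - p` killed by all contractions with the `v j`** -/
theorem eq_smul_Sbi {r : ℕ} (hr : p + r = n) {v w : Fin p → Fin n → ℂ} (h : Dual v w)
    {V : FI n → ℂ} (hV : Dg r V) (h0 : ∀ j, iW (v j) *ᵥ V = 0) :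
    ∃ c : ℂ, V = c • (Sbi ℂ n *ᵥ wdg v) := by
  obtain ⟨c, hc⟩ := eq_smul_wdg h (hV.Sb hr) fun j => by
    rw [eW_Sb, h0, Matrix.mulVec_zero, neg_zero]
  exact ⟨c, by rw [← Matrix.mulVec_smul, ← hc, Sbi_Sb]⟩

theorem le_of_dual {v w : Fin p → Fin n → ℂ} (h : Dual v w) : p ≤ n := by
  obtain ⟨S, hS⟩ := Function.ne_iff.1 (wdg_ne_zero h)
  by_contra hp
  refine hS (dg_wdg v S ?_)
  have := Finset.card_le_univ S
  rw [Fintype.card_fin] at this
  omega

/-- transformation law of the Berezin dual -/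
theorem Gam_Sbi {B B' : Matrix (Fin n) (Fin n) ℂ} (h : B * B' = 1) (τ : FI n → ℂ) :
    Sbi ℂ n *ᵥ (Gam B'ᵀ *ᵥ τ) = B'.det • (Gam B *ᵥ (Sbi ℂ n *ᵥ τ)) := by
  have h2 : Gam B'ᵀ * (Gam B)ᵀ = 1 := by
    rw [Gam_transpose, ← Gam_mul, ← Matrix.transpose_mul, h, Matrix.transpose_one, Gam_one]
  have h3 := mul_Sbi_of_inv (Crest.Agent.R273.LamN127.Gam_Sb B) h2
  have h4 : B'.det * B.det = 1 := by rw [mul_comm, ← Matrix.det_mul, h, Matrix.det_one]
  rw [Matrix.mulVec_mulVec, Matrix.mulVec_mulVec, h3, Matrix.smul_mulVec, smul_smul, h4, one_smul]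

end

end Crest.Agent.X261.Jet.Tb
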