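import Crest.Agent.X261.Psh.Loc
import Crest.Agent.X261.Psh.Hol71
import Crest.Agent.T223.Hm2_77
import Crest.Agent.X261.Jet.TbA
import Crest.Agent.R273.BKNa_37
import Crest.Agent.R273.PullF_155

-- ▼ part X261/Jet/TbB
section

/-!
# Row 261, JET/Tube (helper66), file `TbB`: submersions, local comparison of measures

* `LeG μ x g ν y`, `GeG μ x g ν y` : the push-forward of `μ` by the germ of `g` at `x` is locally
  bounded above (below) by a multiple of `ν` (no measurability is needed);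
* `exists_prod` : product charts for analytic submersions; `leG_subm`, `geG_subm`;
* `leG_chart`, `geG_chart` : the volume `vm vol` against a Haar measure in a chart;
* `psh_smax` : strong maximum principle; `const_comp` : the abstract compactness argument.
-/

set_option autoImplicit false
set_option linter.unusedSectionVars false

open Set Filter Topology MeasureTheory Metric Module
open scoped ENNReal NNReal

namespace Crest.Agent.X261.Jet.Tb

noncomputable section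

/-! ### germs of maps between measured spaces -/

section Germ

variable {X Y Z : Type*} [TopologicalSpace X] [TopologicalSpace Y] [TopologicalSpace Z]
  [MeasurableSpace X] [MeasurableSpace Y] [MeasurableSpace Z]

/-- `g_* μ ≤ C ν` near `x` -/
def LeG (μ : Measure X) (x : X) (g : X → Y) (ν : Measure Y) (y : Y) : Prop :=
  ∀ W ∈ 𝓝 y, ∃ N ∈ 𝓝 x, ∃ C : ℝ≥0∞, C < ⊤ ∧ ∀ Φ : Y → ℝ≥0∞,
    ∫⁻ z in N, Φ (g z) ∂μ ≤ C * ∫⁻ w in W, Φ w ∂ν

/-- `ν ≤ C g_* μ` near `y` -/
def GeG (μ : Measure X) (x : X) (g : X → Y) (ν : Measure Y) (y : Y) : Prop :=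
  ∀ N ∈ 𝓝 x, ∃ W ∈ 𝓝 y, ∃ C : ℝ≥0∞, C < ⊤ ∧ ∀ Φ : Y → ℝ≥0∞,
    ∫⁻ w in W, Φ w ∂ν ≤ C * ∫⁻ z in N, Φ (g z) ∂μ

variable {μ : Measure X} {ν : Measure Y} {ρ : Measure Z} {x : X} {y : Y} {z : Z}
  {g g' : X → Y} {k : Y → Z}

theorem LeG.comp (h' : LeG ν y k ρ z) (h : LeG μ x g ν y) : LeG μ x (fun a => k (g a)) ρ z := by
  intro W hW
  obtain ⟨N, hN, C, hC, H⟩ := h' W hW
  obtain ⟨N', hN', C', hC', H'⟩ := h N hN
  refine ⟨N', hN', C' * C, ENNReal.mul_lt_top hC' hC, fun Φ => ?_⟩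
  refine (H' fun b => Φ (k b)).trans ?_
  rw [mul_assoc]
  gcongr
  exact H Φ

theorem GeG.comp (h' : GeG ν y k ρ z) (h : GeG μ x g ν y) : GeG μ x (fun a => k (g a)) ρ z := by
  intro N hN
  obtain ⟨W, hW, C, hC, H⟩ := h N hN
  obtain ⟨W', hW', C', hC', H'⟩ := h' W hW
  refine ⟨W', hW', C' * C, ENNReal.mul_lt_top hC' hC, fun Φ => ?_⟩
  refine (H' Φ).trans ?_
  rw [mul_assoc]
  gcongr
  exact H fun b => Φ (k b)

variable [OpensMeasurableSpace X]

theorem lint_congr_on {O N : Set X} (hO : IsOpen O) (hN : N ⊆ O) {F F' : X → ℝ≥0∞}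
    (h : ∀ a ∈ O, F a = F' a) : ∫⁻ a in N, F a ∂μ = ∫⁻ a in N, F' a ∂μ :=
  lintegral_congr_ae (Filter.Eventually.mono (ae_mono (Measure.restrict_mono hN le_rfl)
    (ae_restrict_mem hO.measurableSet)) fun a ha => h a ha)

theorem lint_mono_on {O N : Set X} (hO : MeasurableSet O) (hN : N ⊆ O) {F F' : X → ℝ≥0∞}
    (h : ∀ a ∈ O, F a ≤ F' a) : ∫⁻ a in N, F a ∂μ ≤ ∫⁻ a in N, F' a ∂μ :=
  lintegral_mono_ae (Filter.Eventually.mono (ae_mono (Measure.restrict_mono hN le_rfl)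
    (ae_restrict_mem hO)) fun a ha => h a ha)

theorem LeG.congr (h : LeG μ x g ν y) (e : g =ᶠ[𝓝 x] g') : LeG μ x g' ν y := by
  intro W hW
  obtain ⟨N, hN, C, hC, H⟩ := h W hW
  obtain ⟨O, h1, h2, h3⟩ := eventually_nhds_iff.1 e
  refine ⟨N ∩ O, inter_mem hN (h2.mem_nhds h3), C, hC, fun Φ => le_trans ?_ (H Φ)⟩
  rw [lint_congr_on h2 inter_subset_right (F' := fun a => Φ (g a)) fun a ha => by rw [h1 a ha]]
  exact lintegral_mono_set inter_subset_left

theorem GeG.congr (h : GeG μ x g ν y) (e : g =ᶠ[𝓝 x] g') : GeG μ x g' ν y := by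
  intro N hN
  obtain ⟨O, h1, h2, h3⟩ := eventually_nhds_iff.1 e
  obtain ⟨W, hW, C, hC, H⟩ := h (N ∩ O) (inter_mem hN (h2.mem_nhds h3))
  refine ⟨W, hW, C, hC, fun Φ => (H Φ).trans ?_⟩
  rw [lint_congr_on h2 inter_subset_right (F' := fun a => Φ (g' a)) fun a ha => by rw [h1 a ha]]
  gcongr
  exact inter_subset_left

/-- from points to compact sets -/
theorem lint_cpt {K : Set X} (hK : IsCompact K) (h : ∀ a ∈ K, LeG μ a g ν (g a)) {W : Set Y}
    (hW : ∀ a ∈ K, W ∈ 𝓝 (g a)) :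
    ∃ C : ℝ≥0∞, C < ⊤ ∧ ∀ Φ : Y → ℝ≥0∞, ∫⁻ a in K, Φ (g a) ∂μ ≤ C * ∫⁻ w in W, Φ w ∂ν := by
  refine hK.induction_on (p := fun K => ∃ C : ℝ≥0∞, C < ⊤ ∧ ∀ Φ : Y → ℝ≥0∞,
    ∫⁻ a in K, Φ (g a) ∂μ ≤ C * ∫⁻ w in W, Φ w ∂ν) ⟨0, by simp, fun Φ => by simp⟩ ?_ ?_ ?_
  · rintro s t hst ⟨C, hC, H⟩
    exact ⟨C, hC, fun Φ => (lintegral_mono_set hst).trans (H Φ)⟩
  · rintro s t ⟨C, hC, H⟩ ⟨C', hC', H'⟩
    refine ⟨C + C', ENNReal.add_lt_top.2 ⟨hC, hC'⟩, fun Φ => (lintegral_union_le _ _ _).trans ?_⟩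
    rw [add_mul]
    exact add_le_add (H Φ) (H' Φ)
  · intro a ha
    obtain ⟨N, hN, H⟩ := h a ha W (hW a ha)
    exact ⟨N, mem_nhdsWithin_of_mem_nhds hN, H⟩

end Germ

/-! ### Lipschitz maps and Haar measures -/

section Haar

variable {E E' : Type*} [NormedAddCommGroup E] [NormedSpace ℝ E] [FiniteDimensional ℝ E]
  [MeasurableSpace E] [BorelSpace E] [NormedAddCommGroup E'] [NormedSpace ℝ E']
  [FiniteDimensional ℝ E'] [MeasurableSpace E'] [BorelSpace E']
  (μ : Measure E) [μ.IsAddHaarMeasure] (μ' : Measure E') [μ'.IsAddHaarMeasure]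

theorem lip_le (hd : finrank ℝ E = finrank ℝ E') {Θ : E → E'} {N : Set E} {c : ℝ≥0}
    (h : LipschitzOnWith c Θ N) : ∃ C : ℝ≥0∞, C < ⊤ ∧ ∀ S ⊆ N, μ' (Θ '' S) ≤ C * μ S := by
  have h1 := Measure.isAddLeftInvariant_eq_smul μ' (μH[finrank ℝ E'] : Measure E')
  have h2 := Measure.isAddLeftInvariant_eq_smul (μH[finrank ℝ E] : Measure E) μ
  set a := μ'.addHaarScalarFactor (μH[finrank ℝ E'] : Measure E')
  set b := (μH[finrank ℝ E] : Measure E).addHaarScalarFactor μ
  refine ⟨a * ((c : ℝ≥0∞) ^ (finrank ℝ E : ℝ) * b), ?_, fun S hS => ?_⟩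
  · exact ENNReal.mul_lt_top ENNReal.coe_lt_top (ENNReal.mul_lt_top
      (ENNReal.rpow_lt_top_of_nonneg (Nat.cast_nonneg _) ENNReal.coe_ne_top) ENNReal.coe_lt_top)
  · have h3 := (h.mono hS).hausdorffMeasure_image_le (d := finrank ℝ E) (Nat.cast_nonneg _)
    have h4 : μ' (Θ '' S) = a * μH[finrank ℝ E] (Θ '' S) := by
      rw [hd]
      conv_lhs => rw [h1]
      rfl
    have h5 : μH[finrank ℝ E] S = b * μ S := by
      conv_lhs => rw [h2]
      rfl
    rw [h4, mul_assoc, mul_assoc, ← h5]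
    gcongr

theorem lint_lip (hd : finrank ℝ E = finrank ℝ E') {Θ : E → E'} {N : Set E} {c : ℝ≥0}
    (h : LipschitzOnWith c Θ N) (hN : MeasurableSet N) :
    ∃ C : ℝ≥0∞, C < ⊤ ∧ ∀ W ⊆ Θ '' N, ∀ Φ : E' → ℝ≥0∞,
      ∫⁻ w in W, Φ w ∂μ' ≤ C * ∫⁻ z in N, Φ (Θ z) ∂μ := by
  obtain ⟨C, hC, H⟩ := lip_le μ μ' hd h
  refine ⟨C, hC, fun W hW Φ => ?_⟩
  have hm : AEMeasurable Θ (μ.restrict N) := h.continuousOn.aemeasurable hN
  have h1 : μ'.restrict W ≤ C • (μ.restrict N).map Θ := by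
    rw [Measure.le_iff]
    intro s hs
    rw [Measure.restrict_apply hs, Measure.smul_apply, Measure.map_apply_of_aemeasurable hm hs,
      Measure.restrict_apply' hN, smul_eq_mul]
    refine le_trans (measure_mono ?_) (H _ inter_subset_right)
    rintro w ⟨h1, h2⟩
    obtain ⟨z, hz, rfl⟩ := hW h2
    exact ⟨z, ⟨h1, hz⟩, rfl⟩
  refine (lintegral_mono' h1 le_rfl).trans ?_
  rw [lintegral_smul_measure, smul_eq_mul]
  gcongr
  exact lintegral_map_le _ _

end Haar

/-! ### product charts -/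

section Subm

variable {V F : Type} [NormedAddCommGroup V] [NormedSpace ℂ V] [FiniteDimensional ℂ V]
  [NormedAddCommGroup F] [NormedSpace ℂ F] [FiniteDimensional ℂ F]

/-- product chart for an analytic submersion -/
theorem exists_prod {g : V → F} {t : V} (hg : AnalyticAt ℂ g t)
    (hs : Function.Surjective (fderiv ℂ g t)) {N : Set V} (hN : N ∈ 𝓝 t) :
    ∃ (r : ℕ) (φ : OpenPartialHomeomorph V (F × (Fin r → ℂ))) (ρ : ℝ), 0 < ρ ∧ t ∈ φ.source ∧
      (∀ z, (φ z).1 = g z) ∧ AnalyticAt ℂ φ t ∧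
      finrank ℂ V = finrank ℂ (F × (Fin r → ℂ)) ∧ ball (φ t) ρ ⊆ φ.target ∧
      ∀ q ∈ ball (φ t) ρ, AnalyticAt ℂ φ.symm q ∧ φ.symm q ∈ N := by
  have : CompleteSpace V := FiniteDimensional.complete ℂ V
  set L := fderiv ℂ g t with hL
  obtain ⟨A, hA⟩ := (L : V →ₗ[ℂ] F).exists_rightInverse_of_surjective
    (LinearMap.range_eq_top.2 hs)
  have hA' : Function.RightInverse (LinearMap.toContinuousLinearMap A) L :=
    fun x => LinearMap.congr_fun hA x
  let κ : L.ker ≃L[ℂ] (Fin (finrank ℂ L.ker) → ℂ) := ContinuousLinearEquiv.ofFinrankEq (by simp)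
  let e : V ≃L[ℂ] F × (Fin (finrank ℂ L.ker) → ℂ) :=
    (ContinuousLinearEquiv.equivOfRightInverse L _ hA').trans
      ((ContinuousLinearEquiv.refl ℂ F).prodCongr κ)
  let P : V →L[ℂ] (Fin (finrank ℂ L.ker) → ℂ) := (ContinuousLinearMap.snd ℂ _ _).comp
    (e : V →L[ℂ] F × (Fin (finrank ℂ L.ker) → ℂ))
  have h1 : AnalyticAt ℂ (fun z => (g z, P z)) t := hg.prod (P.analyticAt t)
  have h2 : HasStrictFDerivAt (fun z => (g z, P z))
      (e : V →L[ℂ] F × (Fin (finrank ℂ L.ker) → ℂ)) t :=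
    hg.hasStrictFDerivAt.prodMk P.hasStrictFDerivAt
  let φ := h2.toOpenPartialHomeomorph _
  have h3 : t ∈ φ.source := h2.mem_toOpenPartialHomeomorph_source
  have h4 : AnalyticAt ℂ φ.symm (φ t) := φ.analyticAt_symm' h3 h1 h2.hasFDerivAt.fderiv
  have h5 : ∀ᶠ q in 𝓝 (φ t), φ.symm q ∈ N := by
    refine h4.continuousAt.eventually ?_
    rwa [φ.left_inv h3]
  obtain ⟨ρ, hρ, H⟩ := Metric.eventually_nhds_iff_ball.1
    ((h4.eventually_analyticAt.and h5).and (φ.open_target.mem_nhds (φ.map_source h3)))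
  exact ⟨_, φ, ρ, hρ, h3, fun _ => rfl, h1, e.toLinearEquiv.finrank_eq, fun q hq => (H q hq).2,
    fun q hq => (H q hq).1⟩

variable [MeasurableSpace V] [BorelSpace V] [MeasurableSpace F] [BorelSpace F]
  (μ : Measure V) [μ.IsAddHaarMeasure] (ν : Measure F) [ν.IsAddHaarMeasure]

theorem finrank_real_eq {V' : Type*} [NormedAddCommGroup V'] [NormedSpace ℂ V']
    [FiniteDimensional ℂ V'] (h : finrank ℂ V = finrank ℂ V') : finrank ℝ V = finrank ℝ V' := by
  rw [finrank_real_of_complex V, finrank_real_of_complex V', h]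

theorem leG_subm {g : V → F} {t : V} (hg : AnalyticAt ℂ g t)
    (hs : Function.Surjective (fderiv ℂ g t)) : LeG μ t g ν (g t) := by
  intro W hW
  obtain ⟨r, φ, ρ, hρ, h1, h2, h3, h4, h5, h6⟩ := exists_prod hg hs univ_mem
  have : (ν.prod (volume : Measure (Fin r → ℂ))).IsAddHaarMeasure :=
    Measure.prod.instIsAddHaarMeasure _ _
  obtain ⟨c, S, hS, hL⟩ :=
    (h6 _ (mem_ball_self hρ)).1.hasStrictFDerivAt.exists_lipschitzOnWith
  have hW' : Prod.fst ⁻¹' W ∈ 𝓝 (φ t) := continuous_fst.continuousAt.preimage_mem_nhds (by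
    rwa [h2])
  obtain ⟨δ, hδ, hB⟩ := Metric.mem_nhds_iff.1 (inter_mem (inter_mem hS hW') (ball_mem_nhds _ hρ))
  obtain ⟨C, hC, H⟩ := lint_lip (ν.prod (volume : Measure (Fin r → ℂ))) μ
    (finrank_real_eq h4).symm (hL.mono fun q hq => (hB hq).1.1) measurableSet_ball
  refine ⟨φ.symm '' ball (φ t) δ, ?_, C * volume (ball (φ t).2 δ),
    ENNReal.mul_lt_top hC measure_ball_lt_top, fun Φ => ?_⟩
  · have := φ.symm.image_mem_nhds (φ.map_source h1) (ball_mem_nhds _ hδ)
    rwa [φ.left_inv h1] at this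
  · refine (H _ subset_rfl fun z => Φ (g z)).trans ?_
    rw [mul_assoc]
    gcongr
    rw [lint_congr_on isOpen_ball subset_rfl (F' := fun q => Φ q.1) fun q hq => by
      rw [← h2, φ.right_inv (h5 (hB hq).2)], ← ball_prod_same, ← Measure.prod_restrict]
    refine (lintegral_prod_le _).trans ?_
    simp only [lintegral_const, Measure.restrict_apply_univ]
    rw [lintegral_mul_const' _ _ measure_ball_lt_top.ne, mul_comm]
    gcongr
    intro y hy
    exact (hB (a := (y, (φ t).2)) (by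
      rw [← ball_prod_same]; exact ⟨hy, mem_ball_self hδ⟩)).1.2

theorem geG_subm {g : V → F} {t : V} (hg : AnalyticAt ℂ g t)
    (hs : Function.Surjective (fderiv ℂ g t)) : GeG μ t g ν (g t) := by
  intro N hN
  obtain ⟨r, φ, ρ, hρ, h1, h2, h3, h4, h5, h6⟩ := exists_prod hg hs univ_mem
  have : (ν.prod (volume : Measure (Fin r → ℂ))).IsAddHaarMeasure :=
    Measure.prod.instIsAddHaarMeasure _ _
  obtain ⟨c, S, hS, hL⟩ := h3.hasStrictFDerivAt.exists_lipschitzOnWith
  obtain ⟨ε, hε, hB⟩ := Metric.mem_nhds_iff.1 (inter_mem hS hN)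
  obtain ⟨C, hC, H⟩ := lint_lip μ (ν.prod (volume : Measure (Fin r → ℂ)))
    (finrank_real_eq h4) (hL.mono fun q hq => (hB hq).1) measurableSet_ball
  obtain ⟨δ, hδ, hD⟩ := Metric.mem_nhds_iff.1 (φ.image_mem_nhds h1 (ball_mem_nhds _ hε))
  have h0 : volume (ball (φ t).2 δ) ≠ 0 := (measure_ball_pos _ _ hδ).ne'
  refine ⟨ball (g t) δ, ball_mem_nhds _ hδ, (volume (ball (φ t).2 δ))⁻¹ * C,
    ENNReal.mul_lt_top (ENNReal.inv_lt_top.2 (pos_iff_ne_zero.2 h0)) hC, fun Φ => ?_⟩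
  have h7 := H _ hD fun q => Φ q.1
  have h8 : volume (ball (φ t).2 δ) * ∫⁻ w in ball (g t) δ, Φ w ∂ν ≤
      ∫⁻ q in ball (φ t) δ, Φ q.1 ∂(ν.prod (volume : Measure (Fin r → ℂ))) := by
    rw [← ball_prod_same, ← Measure.prod_restrict, h2]
    refine le_trans (le_of_eq ?_) (lintegral_map_le Φ Prod.fst)
    rw [Measure.map_fst_prod, lintegral_smul_measure, Measure.restrict_apply_univ, smul_eq_mul]
  rw [mul_assoc, ← ENNReal.mul_le_iff_le_inv h0 measure_ball_lt_top.ne]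
  refine h8.trans (h7.trans ?_)
  simp only [h2]
  gcongr
  exact fun q hq => (hB hq).2

end Subm

/-! ### charts -/

section Chart

open Crest.Agent.R275.Geo Crest.Agent.R275.Core144 Crest.Agent.R273.Defs_333
open Crest.Agent.R273.Vm_333 Crest.Agent.T223.Hm

variable {n : ℕ} {M : Type} [TopologicalSpace M] {A : Atl n M} [Countable A.ι]
  [MeasurableSpace M] [BorelSpace M] (vol : HM (KB A)⁻¹) {i : A.ι} {x : M}

theorem lint_cz {O : Set (Fin n → ℂ)} (hO : IsOpen O) (hOT : O ⊆ Tz A i)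
    (Φ : (Fin n → ℂ) → ℝ≥0∞) :
    ∫⁻ y in (A.e i).source ∩ cz A i ⁻¹' O, Φ (cz A i y) ∂(vm vol) =
      ∫⁻ z in O, rz vol i z * Φ z := by
  have hm : MeasurableSet ((A.e i).source ∩ cz A i ⁻¹' O) :=
    ((contOn_cz i).isOpen_inter_preimage (A.e i).open_source hO).measurableSet
  have e1 : ∫⁻ z in O, rz vol i z * Φ z = ∫⁻ z, O.indicator Φ z ∂(nz vol i) := by
    rw [lintegral_indicator hO.measurableSet]
    unfold nz
    rw [setLIntegral_withDensity_eq_setLIntegral_mul_non_measurable₀ _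
      ((aem_rz vol i).restrict) _ hO.measurableSet
      (Eventually.of_forall fun _ => ENNReal.ofReal_lt_top),
      Measure.restrict_restrict hO.measurableSet, inter_eq_left.2 hOT]
    rfl
  have e2 : ∫⁻ y in (A.e i).source ∩ cz A i ⁻¹' O, Φ (cz A i y) ∂(vm vol) =
      ∫⁻ y in (A.e i).source, O.indicator Φ (cz A i y) ∂(vm vol) := by
    rw [← inter_eq_left.2 (inter_subset_left (s := (A.e i).source) (t := cz A i ⁻¹' O)),
      ← Measure.restrict_restrict hm, ← lintegral_indicator hm]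
    refine lint_congr_on (A.e i).open_source subset_rfl fun y hy => ?_
    by_cases h : cz A i y ∈ O
    · rw [indicator_of_mem h, indicator_of_mem (mem_inter hy h)]
    · rw [indicator_of_notMem h, indicator_of_notMem fun h' => h h'.2]
  rw [e1, e2]
  refine le_antisymm ?_ ?_
  · rw [← map_sz]
    refine (lintegral_map_le _ _).trans (le_of_eq (lintegral_congr_ae ?_))
    refine (nz_ac vol i).ae_le ?_
    filter_upwards [ae_restrict_mem (isOpen_Tz i).measurableSet] with z hz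
    rw [cz_sz hz]
  · rw [← map_cz]
    exact lintegral_map_le _ _

theorem ev_rz (hx : x ∈ (A.e i).source) : ∃ c : ℝ, 0 < c ∧ ∀ᶠ z in 𝓝 (cz A i x),
    z ∈ Tz A i ∧ ENNReal.ofReal c ≤ rz vol i z ∧ rz vol i z ≤ ENNReal.ofReal (3 * c) := by
  have h1 := (isOpen_Tz i).mem_nhds (cz_mem hx)
  have h2 := (contOn_vz vol i).continuousAt h1
  have h3 : 0 < vol.w i (sz A i (cz A i x)) := vol.pos i _ (sz_mem (cz_mem hx))
  refine ⟨vol.w i (sz A i (cz A i x)) / 2, half_pos h3, ?_⟩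
  filter_upwards [h1, h2.eventually (lt_mem_nhds (half_lt_self h3)),
    h2.eventually (gt_mem_nhds (show vol.w i (sz A i (cz A i x)) <
      3 * (vol.w i (sz A i (cz A i x)) / 2) by linarith))] with z a b c
  exact ⟨a, ENNReal.ofReal_le_ofReal b.le, ENNReal.ofReal_le_ofReal c.le⟩

theorem leG_cz (hx : x ∈ (A.e i).source) : LeG (vm vol) x (cz A i) volume (cz A i x) := by
  intro W hW
  obtain ⟨c, -, H⟩ := ev_rz vol hx
  obtain ⟨O, h1, h2, h3⟩ := _root_.mem_nhds_iff.1 (inter_mem hW H)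
  refine ⟨(A.e i).source ∩ cz A i ⁻¹' O, ((contOn_cz i).isOpen_inter_preimage
    (A.e i).open_source h2).mem_nhds ⟨hx, h3⟩, ENNReal.ofReal (3 * c), ENNReal.ofReal_lt_top,
    fun Φ => ?_⟩
  rw [lint_cz vol h2 fun z hz => (h1 hz).2.1, ← lintegral_const_mul' _ _ ENNReal.ofReal_ne_top]
  refine le_trans (lint_mono_on h2.measurableSet subset_rfl fun z hz => ?_)
    (lintegral_mono_set fun z hz => (h1 hz).1)
  gcongr
  exact (h1 hz).2.2.2

theorem geG_cz (hx : x ∈ (A.e i).source) : GeG (vm vol) x (cz A i) volume (cz A i x) := by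
  intro N hN
  obtain ⟨c, hc, H⟩ := ev_rz vol hx
  have hN' : sz A i ⁻¹' N ∈ 𝓝 (cz A i x) :=
    ((contOn_sz i).continuousAt ((isOpen_Tz i).mem_nhds (cz_mem hx))).preimage_mem_nhds
      (by rwa [sz_cz hx])
  obtain ⟨O, h1, h2, h3⟩ := _root_.mem_nhds_iff.1 (inter_mem hN' H)
  have h0 : ENNReal.ofReal c ≠ 0 := (ENNReal.ofReal_pos.2 hc).ne'
  refine ⟨O, h2.mem_nhds h3, (ENNReal.ofReal c)⁻¹, ENNReal.inv_lt_top.2 (pos_iff_ne_zero.2 h0),
    fun Φ => ?_⟩
  rw [← ENNReal.mul_le_iff_le_inv h0 ENNReal.ofReal_ne_top,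
    ← lintegral_const_mul' _ _ ENNReal.ofReal_ne_top]
  refine le_trans (lint_mono_on (F' := fun z => rz vol i z * Φ z) h2.measurableSet subset_rfl
    fun z hz => ?_) ?_
  · gcongr
    exact (h1 hz).2.2.1
  · rw [← lint_cz vol h2 fun z hz => (h1 hz).2.1]
    refine lintegral_mono_set fun y hy => ?_
    have := (h1 hy.2).1
    rwa [mem_preimage, sz_cz hy.1] at this

variable [MeasurableSpace (Cn n)] [BorelSpace (Cn n)] (μ : Measure (Cn n)) [μ.IsAddHaarMeasure]

theorem an_toLp (z : Fin n → ℂ) : AnalyticAt ℂ (fun z : Fin n → ℂ => (WithLp.toLp 2 z : Cn n)) z ∧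
    Function.Surjective (fderiv ℂ (fun z : Fin n → ℂ => (WithLp.toLp 2 z : Cn n)) z) := by
  let e := (EuclideanSpace.equiv (Fin n) ℂ).symm
  refine ⟨(e : (Fin n → ℂ) →L[ℂ] Cn n).analyticAt z, ?_⟩
  have : fderiv ℂ (fun z : Fin n → ℂ => (WithLp.toLp 2 z : Cn n)) z = e := e.fderiv
  rw [this]
  exact e.surjective

theorem leG_chart (hx : x ∈ (A.e i).source) : LeG (vm vol) x (A.e i) μ (A.e i x) :=
  (leG_subm volume μ (an_toLp _).1 (an_toLp _).2).comp (leG_cz vol hx)

theorem geG_chart (hx : x ∈ (A.e i).source) : GeG (vm vol) x (A.e i) μ (A.e i x) :=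
  (geG_subm volume μ (an_toLp _).1 (an_toLp _).2).comp (geG_cz vol hx)

end Chart

/-! ### maximum principle -/

section Max

open Crest.Agent.X261.Psh

/-- strong maximum principle -/
theorem psh_smax {E : Type*} [NormedAddCommGroup E] [NormedSpace ℂ E] [FiniteDimensional ℂ E]
    {D : Set E} {u : E → EReal} (h : IsPsh D u) (hD : IsOpen D) {z : E} (hz : z ∈ D)
    (hm : ∀ᶠ y in 𝓝 z, u y ≤ u z) : ∀ᶠ y in 𝓝 z, u y = u z := by
  borelize E
  let μ : Measure E := Measure.addHaar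
  induction hu : u z with
  | bot => exact hm.mono fun y hy => le_bot_iff.1 (hu ▸ hy)
  | top => exact absurd hu (h.lt_top z hz).ne
  | coe a =>
    rw [hu] at hm
    obtain ⟨r, hr, hB⟩ := Metric.mem_nhds_iff.1 (inter_mem (hD.mem_nhds hz) hm)
    have h1 := h.lint_ball μ hD (fun y hy => (hB hy).1) fun y hy => (hB hy).2
    rw [hu, cst_coe, sub_self, ENNReal.ofReal_zero, mul_zero, nonpos_iff_eq_zero] at h1
    replace h1 := (lintegral_eq_zero_iff' ((measurable_cst a).comp_aemeasurable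
        (h.aemeasurable hD μ measurableSet_ball fun y hy => (hB hy).1))).1 h1
    have h2 : ∀ᵐ y ∂μ, y ∈ ball z r → (a : EReal) ≤ u y := by
      refine (ae_restrict_iff' measurableSet_ball).1 (h1.mono fun y hy => ?_)
      have := le_of_cst_le (C := a) (a := u y) le_rfl (by
        rw [ENNReal.ofReal_zero]; exact le_of_eq hy)
      simpa using this
    filter_upwards [ball_mem_nhds z hr] with y hy
    refine le_antisymm (hB hy).2 ?_
    by_contra hlt
    push Not at hlt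
    have h3 : ∀ᶠ w in 𝓝 y, u w < a := by
      have := h.usc y (hB hy).1 _ hlt
      rwa [hD.nhdsWithin_eq (hB hy).1] at this
    have h4 : μ {w | w ∈ ball z r ∧ u w < a} = 0 := by
      refine measure_mono_null (fun w hw => ?_) (ae_iff.1 h2)
      exact fun hw' => absurd (hw' hw.1) (not_le.2 hw.2)
    exact (Measure.measure_pos_of_mem_nhds μ
      (Filter.Eventually.and (isOpen_ball.mem_nhds hy) h3)).ne' h4

/-- a function with the strong maximum principle on a compact, locally connected space is constant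
on the connected components -/
theorem const_comp {F : Type*} [TopologicalSpace F] [CompactSpace F] {u : F → EReal}
    (hu : UpperSemicontinuous u) (hc : ∀ x : F, ∃ P ∈ 𝓝 x, IsPreconnected P)
    (hm : ∀ x, (∀ᶠ y in 𝓝 x, u y ≤ u x) → ∀ᶠ y in 𝓝 x, u y = u x) (x : F) :
    connectedComponent x ∈ 𝓝 x ∧ ∀ y ∈ connectedComponent x, u y = u x := by
  have h1 : ∀ y ∈ connectedComponent x, connectedComponent x ∈ 𝓝 y := fun y hy => by
    obtain ⟨P, hP, hP'⟩ := hc y
    rw [connectedComponent_eq hy]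
    exact mem_of_superset hP (hP'.subset_connectedComponent (mem_of_mem_nhds hP))
  refine ⟨h1 x mem_connectedComponent, ?_⟩
  obtain ⟨a, ha, hmax⟩ := (hu.upperSemicontinuousOn (connectedComponent x)).exists_isMaxOn
    connectedComponent_nonempty isClosed_connectedComponent.isCompact
  have h2 : connectedComponent x ⊆ {y | y ∈ connectedComponent x ∧ u y = u a} := by
    refine isPreconnected_connectedComponent.subset_of_closure_inter_subset ?_ ⟨a, ha, ha, rfl⟩ ?_
    · rw [isOpen_iff_mem_nhds]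
      rintro y ⟨hy, hy'⟩
      filter_upwards [h1 y hy, hm y (by
        filter_upwards [h1 y hy] with w hw
        rw [hy']; exact hmax hw)] with w hw hw'
      exact ⟨hw, hw'.trans hy'⟩
    · rintro y ⟨hy, hy'⟩
      refine ⟨hy', le_antisymm (hmax hy') ?_⟩
      by_contra hlt
      push Not at hlt
      obtain ⟨w, hw, hw'⟩ := mem_closure_iff_nhds.1 hy _ (hu y _ hlt)
      exact absurd hw'.2 (ne_of_lt hw)
  intro y hy
  rw [(h2 hy).2, (h2 mem_connectedComponent).2]

end Max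

end

end Crest.Agent.X261.Jet.Tb
end

-- ▼ part X261/Jet/TbC

/-!
# Row 261, JET/Tube (helper66), file `TbC`: holomorphic submersions with compact fibres

* `Sbm A T π` : `π` is a holomorphic submersion on the open set `T`; `dp` : its differentials;
  `Sbm.dual`, `dW_ne`, `dW_tr`, `dW_hol`, `dW_closed`, `eW_dl_comp`;
* `PC` : product charts; `Sbm.leG`, `Sbm.geG` : local comparison of `π_* vol` and Lebesgue measure;
* `PshM A T u` : psh functions on `T`; `Sbm.psh_lc`, `Sbm.hol_lc` : psh and holomorphic functions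
  are locally constant on compact fibres; `Sbm.fac` : `f = F ∘ π` locally;
* `Tub A T π` : proper over the unit ball; `Tub.basic` : psh functions come from the ball.
-/

set_option autoImplicit false
set_option linter.unusedSectionVars false

open Set Filter Topology Complex Matrix MeasureTheory Metric
open scoped ContDiff Matrix ComplexConjugate ENNReal

namespace Crest.Agent.X261.Jet.Tb

open Crest.Agent.R275 Crest.Agent.R275.Geo Crest.Agent.R275.Core144
open Crest.Agent.R275.OmT75 (dl dj dj_holo dj_comp dj_congr dl_chain)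
open Crest.Agent.R273.Defs_333 Crest.Agent.R273.Vm_333
open Crest.Agent.R273.Fock_243 Crest.Agent.R273.GamR_155
open Crest.Agent.R273.Calc_243 (dS dV dM Sm SmV SmM dS_congr dS_comm dV_mulVec)
open Crest.Agent.R273.BKNa_37 (dl_eq_dS)
open Crest.Agent.R281.ThnM_280 (Crit surj_of_not_crit)
open Crest.Agent.X261.Top (wdg dW HolV Tube)
open Crest.Agent.X261.Psh

noncomputable section

variable {n p : ℕ} {M : Type} [TopologicalSpace M] {A : Atl n M} {T : Set M} {π : M → Cn p}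
  {i j : A.ι} {x : M}

/-- holomorphic submersions -/
structure Sbm (A : Atl n M) (T : Set M) (π : M → Cn p) : Prop where
  opn : IsOpen T
  hol : HolV A T π
  subm : Crit A T π = ∅

/-- the differentials of the components -/
def dp (A : Atl n M) (i : A.ι) (π : M → Cn p) (x : M) : Fin p → Fin n → ℂ :=
  fun k a => dl A i a (fun y => π y k) x

theorem dW_dp : dW A i π x = wdg (dp A i π x) := rfl

theorem dg_dW : Dg p (dW A i π x) := dg_wdg _

theorem mem_ti (hx : x ∈ T) (hi : x ∈ (A.e i).source) :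
    A.e i x ∈ (A.e i).target ∩ (A.e i).symm ⁻¹' T :=
  ⟨(A.e i).map_source hi, by rw [mem_preimage, (A.e i).left_inv hi]; exact hx⟩

theorem holAt_an {f : M → ℂ} (hf : HolAt A i T f) (hT : IsOpen T) :
    AnalyticOnNhd ℂ (fun z => f ((A.e i).symm z)) ((A.e i).target ∩ (A.e i).symm ⁻¹' T) :=
  Crest.Agent.R266.SCV.analyticOnNhd_of_differentiableOn (isOpen_ti hT) hf

theorem sm_of_an {f : Cn n → ℂ} {z : Cn n} (h : AnalyticAt ℂ f z) : Sm z f :=
  (h.contDiffAt (n := ∞)).restrict_scalars ℝ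

theorem cont_of_chart {W : Type*} [TopologicalSpace W] {f : M → W} (hi : x ∈ (A.e i).source)
    (h : ContinuousAt (fun z => f ((A.e i).symm z)) (A.e i x)) : ContinuousAt f x := by
  refine (ContinuousAt.comp (f := A.e i) h ((A.e i).continuousAt hi)).congr ?_
  filter_upwards [(A.e i).open_source.mem_nhds hi] with y hy
  simp only [Function.comp, (A.e i).left_inv hy]

theorem ev_read {P : M → Prop} (hi : x ∈ (A.e i).source) (h : ∀ᶠ y in 𝓝 x, P y) :
    ∀ᶠ z in 𝓝 (A.e i x), P ((A.e i).symm z) := by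
  refine ((A.e i).continuousAt_symm ((A.e i).map_source hi)).eventually ?_
  rwa [(A.e i).left_inv hi]

theorem dl_congr' {f g : M → ℂ} (hi : x ∈ (A.e i).source) (h : f =ᶠ[𝓝 x] g) (a : Fin n) :
    dl A i a f x = dl A i a g x := dj_congr (ev_read (P := fun y => f y = g y) hi h)

namespace Sbm

variable (H : Sbm A T π)
include H

theorem an (i : A.ι) :
    AnalyticOnNhd ℂ (fun z => π ((A.e i).symm z)) ((A.e i).target ∩ (A.e i).symm ⁻¹' T) :=
  Crest.Agent.R266.SCV.analyticOnNhd_of_differentiableOn (isOpen_ti H.opn) (H.hol i)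

theorem anAt (hx : x ∈ T) (hi : x ∈ (A.e i).source) :
    AnalyticAt ℂ (fun z => π ((A.e i).symm z)) (A.e i x) := H.an i _ (mem_ti hx hi)

theorem surj (hx : x ∈ T) (hi : x ∈ (A.e i).source) :
    Function.Surjective (fderiv ℂ (fun z => π ((A.e i).symm z)) (A.e i x)) :=
  surj_of_not_crit hx (by rw [H.subm]; exact notMem_empty _) hi

theorem contAt (hx : x ∈ T) : ContinuousAt π x := by
  obtain ⟨i, hi⟩ := A.cover x
  exact cont_of_chart hi (H.anAt hx hi).continuousAt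

theorem cont : ContinuousOn π T := fun _ hx => (H.contAt hx).continuousWithinAt

theorem mono {T' : Set M} (ho : IsOpen T') (h : T' ⊆ T) : Sbm A T' π :=
  ⟨ho, fun i => (H.hol i).mono fun _ hz => ⟨hz.1, h hz.2⟩,
    eq_empty_of_forall_notMem fun y hy => by
      have : y ∈ Crit A T π := ⟨h hy.1, hy.2⟩
      rwa [H.subm] at this⟩

theorem holAt (i : A.ι) (k : Fin p) : HolAt A i T fun y => π y k :=
  ((EuclideanSpace.proj k : Cn p →L[ℂ] ℂ).differentiable).comp_differentiableOn (H.hol i)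

theorem dp_eq (hx : x ∈ T) (hi : x ∈ (A.e i).source) (k : Fin p) (a : Fin n) :
    dp A i π x k a =
      fderiv ℂ (fun z => π ((A.e i).symm z)) (A.e i x) (EuclideanSpace.single a 1) k := by
  have h1 := (EuclideanSpace.proj k : Cn p →L[ℂ] ℂ).hasFDerivAt.comp _
    (H.anAt hx hi).differentiableAt.hasFDerivAt
  exact (dj_holo h1.differentiableAt).trans (by rw [h1.fderiv]; rfl)

theorem dp_dot (hx : x ∈ T) (hi : x ∈ (A.e i).source) (k : Fin p) (v : Cn n) :
    ∑ a, dp A i π x k a * v a = fderiv ℂ (fun z => π ((A.e i).symm z)) (A.e i x) v k := by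
  conv_rhs => rw [OmT75.cn_sum v]
  simp [H.dp_eq hx hi, mul_comm]

theorem dual (hx : x ∈ T) (hi : x ∈ (A.e i).source) : ∃ w, Dual (dp A i π x) w := by
  choose w hw using fun k : Fin p => H.surj hx hi (EuclideanSpace.single k 1)
  refine ⟨fun k a => w k a, fun j k => ?_⟩
  rw [H.dp_dot hx hi, hw]
  simp

theorem dW_ne (hx : x ∈ T) (hi : x ∈ (A.e i).source) : dW A i π x ≠ 0 :=
  wdg_ne_zero (H.dual hx hi).choose_spec

theorem le_dim (hx : x ∈ T) : p ≤ n := by
  obtain ⟨i, hi⟩ := A.cover x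
  exact le_of_dual (H.dual hx hi).choose_spec

theorem dp_tr (hx : x ∈ T) (hij : x ∈ (A.e i).source ∩ (A.e j).source) (k : Fin p) :
    dp A i π x k = (Jm A i j x)ᵀ *ᵥ dp A j π x k := by
  funext a
  rw [dp, dl_chain (((H.holAt j k).diffAt H.opn hij.2 hx).restrictScalars ℝ) hij a]
  simp [Matrix.mulVec, dotProduct, dp]

theorem dW_tr (hx : x ∈ T) (hij : x ∈ (A.e i).source ∩ (A.e j).source) :
    dW A i π x = Gam (Jm A i j x)ᵀ *ᵥ dW A j π x := by
  rw [dW_dp, dW_dp, Gam_wdg]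
  congr 1
  funext k
  exact H.dp_tr hx hij k

theorem dp_hol (i : A.ι) (k : Fin p) (a : Fin n) : HolAt A i T fun y => dp A i π y k a := by
  have h1 : DifferentiableOn ℂ (fun z => fderiv ℂ (fun z => π ((A.e i).symm z)) z
      (EuclideanSpace.single a 1)) ((A.e i).target ∩ (A.e i).symm ⁻¹' T) :=
    (H.an i).fderiv.differentiableOn.clm_apply (differentiableOn_const _)
  refine (((EuclideanSpace.proj k : Cn p →L[ℂ] ℂ).differentiable).comp_differentiableOn h1).congr
    fun z hz => ?_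
  refine (H.dp_eq hz.2 ((A.e i).map_target hz.1) k a).trans ?_
  rw [(A.e i).right_inv hz.1]
  rfl

theorem dW_hol (i : A.ι) (S : FI n) : HolAt A i T fun y => dW A i π y S := by
  by_cases h : S.card = p
  · have : (fun y => dW A i π y S) = fun y =>
        (Matrix.of fun k l : Fin p => dp A i π y k (S.orderEmbOfFin h l)).det := by
      funext y
      exact dif_pos h
    rw [this]
    simp only [Matrix.det_apply']
    exact HolAt.sum _ fun σ _ => HolAt.const_mul _ (HolAt.prod _ fun k _ => H.dp_hol i _ _)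
  · exact (holAt_const 0).congr fun y _ _ => (dg_dW S h).symm

/-- `d (dπ_1 ∧ … ∧ dπ_p) = 0` -/
theorem dW_closed (hx : x ∈ T) (hi : x ∈ (A.e i).source) :
    ∑ l, eW (ep l) *ᵥ (fun S => dl A i l (fun y => dW A i π y S) x) = 0 := by
  let w : Cn n → Matrix (Fin n) (Fin p) ℂ := fun z =>
    Matrix.of fun a k => dS (-I) a (fun z => π ((A.e i).symm z) k) z
  have hs : ∀ k, Sm (A.e i x) fun z => π ((A.e i).symm z) k := fun k =>
    sm_of_an (holAt_an (H.holAt i k) H.opn _ (mem_ti hx hi))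
  have hw : SmM (A.e i x) w := fun a k => (hs k).dS _ _
  have h1 := kahler_eR (A := w (A.e i x)) (fun l => dM (-I) l w (A.e i x))
    (fun l => dM (-I) l (fun y => GamR (w y)) (A.e i x))
    (fun l k => Crest.Agent.R273.PullF_155.dM_GamR_eW hw k)
    (fun l S => Crest.Agent.R273.PullF_155.dM_GamR_vac S) fun l b c => dS_comm (hs c)
  have h2 : ∀ l, (fun S => dl A i l (fun y => dW A i π y S) x) =
      dM (-I) l (fun y => GamR (w y)) (A.e i x) *ᵥ Pi.single Finset.univ 1 := fun l => by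
    funext S
    rw [dl_eq_dS, Matrix.mulVec_single_one]
    refine dS_congr ?_
    filter_upwards [(A.e i).open_target.mem_nhds ((A.e i).map_source hi)] with z hz
    rw [dW_dp, wdg_eq, Matrix.mulVec_single_one]
    have e : (Matrix.of (dp A i π ((A.e i).symm z)))ᵀ = w z := by
      ext a k
      simp only [w, Matrix.transpose_apply, Matrix.of_apply, dp, dl_eq_dS, (A.e i).right_inv hz]
    rw [e]
    rfl
  simp only [h2, Matrix.mulVec_mulVec]
  rw [← Matrix.sum_mulVec, h1, Matrix.zero_mulVec]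

/-- chain rule for a function of `π` -/
theorem dl_comp (hx : x ∈ T) (hi : x ∈ (A.e i).source) {b : M → ℂ} {Φ : Cn p → ℂ}
    (hΦ : DifferentiableAt ℝ Φ (π x)) (hb : ∀ᶠ y in 𝓝 x, b y = Φ (π y)) (a : Fin n) :
    dl A i a b x = ∑ k, dj k Φ (π x) * dp A i π x k a := by
  rw [dl_congr' hi hb]
  have h1 := dj_comp (F := Φ) (T := fun z => π ((A.e i).symm z)) (z := A.e i x)
    (by simpa only [(A.e i).left_inv hi] using hΦ) (H.anAt hx hi).differentiableAt a
  refine h1.trans (Finset.sum_congr rfl fun k _ => ?_)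
  rw [H.dp_eq hx hi, (A.e i).left_inv hi, smul_eq_mul, mul_comm]

theorem eW_dl_comp (hx : x ∈ T) (hi : x ∈ (A.e i).source) {b : M → ℂ} {Φ : Cn p → ℂ}
    (hΦ : DifferentiableAt ℝ Φ (π x)) (hb : ∀ᶠ y in 𝓝 x, b y = Φ (π y)) :
    eW (fun a => dl A i a b x) *ᵥ dW A i π x = 0 := by
  simp only [H.dl_comp hx hi hΦ hb]
  exact eW_wdg_comb _ _

section meas

variable [Countable A.ι] [MeasurableSpace M] [BorelSpace M] (vol : HM (KB A)⁻¹)
  [MeasurableSpace (Cn p)] [BorelSpace (Cn p)] (ν : Measure (Cn p)) [ν.IsAddHaarMeasure]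

theorem leG (hx : x ∈ T) : LeG (vm vol) x π ν (π x) := by
  obtain ⟨i, hi⟩ := A.cover x
  borelize (Cn n)
  have h1 := (leG_subm Measure.addHaar ν (H.anAt hx hi) (H.surj hx hi)).comp
    (leG_chart vol Measure.addHaar hi)
  simp only [(A.e i).left_inv hi] at h1
  refine h1.congr ?_
  filter_upwards [(A.e i).open_source.mem_nhds hi] with y hy
  rw [(A.e i).left_inv hy]

theorem geG (hx : x ∈ T) : GeG (vm vol) x π ν (π x) := by
  obtain ⟨i, hi⟩ := A.cover x
  borelize (Cn n)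
  have h1 := (geG_subm Measure.addHaar ν (H.anAt hx hi) (H.surj hx hi)).comp
    (geG_chart vol Measure.addHaar hi)
  simp only [(A.e i).left_inv hi] at h1
  refine h1.congr ?_
  filter_upwards [(A.e i).open_source.mem_nhds hi] with y hy
  rw [(A.e i).left_inv hy]

end meas

end Sbm

/-! ### product charts -/

/-- product chart at `x` -/
structure PC (A : Atl n M) (T : Set M) (π : M → Cn p) (i : A.ι) (x : M) where
  r : ℕ
  G : Cn p × (Fin r → ℂ) → Cn n
  κ : M → Fin r → ℂ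
  ρ : ℝ
  pos : 0 < ρ
  mem : x ∈ (A.e i).source
  cont : ContinuousAt κ x
  cpi : ContinuousAt π x
  inv : ∀ᶠ z in 𝓝 x, G (π z, κ z) = A.e i z
  an : AnalyticOnNhd ℂ G (ball (π x, κ x) ρ)
  maps : MapsTo G (ball (π x, κ x) ρ) ((A.e i).target ∩ (A.e i).symm ⁻¹' T)
  fst : ∀ q ∈ ball (π x, κ x) ρ, π ((A.e i).symm (G q)) = q.1

theorem Sbm.exists_pc (H : Sbm A T π) (hx : x ∈ T) (hi : x ∈ (A.e i).source) :
    Nonempty (PC A T π i x) := by
  obtain ⟨r, φ, ρ, hρ, h1, h2, h3, -, h5, h6⟩ := exists_prod (H.anAt hx hi) (H.surj hx hi)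
    ((isOpen_ti H.opn).mem_nhds (mem_ti hx hi))
  have e : ∀ z ∈ (A.e i).source, (π z, (φ (A.e i z)).2) = φ (A.e i z) := fun z hz =>
    Prod.ext (by rw [h2, (A.e i).left_inv hz]) rfl
  refine ⟨⟨r, φ.symm, fun z => (φ (A.e i z)).2, ρ, hρ, hi,
    (ContinuousAt.comp (f := A.e i) h3.continuousAt ((A.e i).continuousAt hi)).snd, H.contAt hx,
    ?_, fun q hq => ?_, fun q hq => ?_, fun q hq => ?_⟩⟩
  · filter_upwards [(A.e i).open_source.mem_nhds hi,
      ((A.e i).continuousAt hi).preimage_mem_nhds (φ.open_source.mem_nhds h1)] with z hz hz'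
    rw [e z hz, φ.left_inv hz']
  · rw [e x hi] at hq
    exact (h6 q hq).1
  · rw [e x hi] at hq
    exact (h6 q hq).2
  · rw [e x hi] at hq
    rw [← h2, φ.right_inv (h5 hq)]

namespace PC

variable (P : PC A T π i x)

/-- the parametrisation -/
def Γ (q : Cn p × (Fin P.r → ℂ)) : M := (A.e i).symm (P.G q)

theorem mem_ball' {y : Cn p} {w : Fin P.r → ℂ} (hy : y ∈ ball (π x) P.ρ)
    (hw : w ∈ ball (P.κ x) P.ρ) : (y, w) ∈ ball (π x, P.κ x) P.ρ := by
  rw [← ball_prod_same]; exact ⟨hy, hw⟩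

theorem Γ_mem {q : Cn p × (Fin P.r → ℂ)} (hq : q ∈ ball (π x, P.κ x) P.ρ) : P.Γ q ∈ T :=
  (P.maps hq).2

theorem π_Γ {q : Cn p × (Fin P.r → ℂ)} (hq : q ∈ ball (π x, P.κ x) P.ρ) : π (P.Γ q) = q.1 :=
  P.fst q hq

theorem Γ_cont {q : Cn p × (Fin P.r → ℂ)} (hq : q ∈ ball (π x, P.κ x) P.ρ) :
    ContinuousAt P.Γ q :=
  ((A.e i).continuousAt_symm (P.maps hq).1).comp (P.an q hq).continuousAt

theorem Γ_inv : ∀ᶠ z in 𝓝 x, P.Γ (π z, P.κ z) = z := by
  filter_upwards [P.inv, (A.e i).open_source.mem_nhds P.mem] with z h1 h2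
  rw [Γ, h1, (A.e i).left_inv h2]

theorem Γ_self : P.Γ (π x, P.κ x) = x := P.Γ_inv.self_of_nhds

theorem G_self : P.G (π x, P.κ x) = A.e i x := P.inv.self_of_nhds

theorem sec_an {y : Cn p} (hy : y ∈ ball (π x) P.ρ) : AnalyticAt ℂ (fun y => P.G (y, P.κ x)) y :=
  AnalyticAt.comp (g := P.G) (f := fun y => (y, P.κ x))
    (P.an _ (P.mem_ball' hy (mem_ball_self P.pos))) (analyticAt_id.prod analyticAt_const)



/-- a function which is locally constant on the fibres is locally a function of `π` -/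
theorem basic {β : Type*} {v : M → β} (hv : ∀ y ∈ T, ∀ᶠ z in 𝓝 y, π z = π y → v z = v y) :
    ∀ᶠ z in 𝓝 x, v z = v (P.Γ (π z, P.κ x)) := by
  filter_upwards [P.Γ_inv, P.cpi.eventually (ball_mem_nhds _ P.pos),
    P.cont.eventually (ball_mem_nhds _ P.pos)] with z h1 h2 h3
  conv_lhs => rw [← h1]
  refine (convex_ball (P.κ x) P.ρ).isPreconnected.induction₂'
    (fun w w' => v (P.Γ (π z, w)) = v (P.Γ (π z, w'))) (fun w hw => ?_)
    (fun _ _ _ _ _ _ a b => a.trans b) h3 (mem_ball_self P.pos)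
  have h4 := P.mem_ball' h2 hw
  have h5 : ContinuousAt (fun w => P.Γ (π z, w)) w :=
    ContinuousAt.comp (f := fun w => (π z, w)) (P.Γ_cont h4) (by fun_prop)
  filter_upwards [mem_nhdsWithin_of_mem_nhds (h5.eventually (hv _ (P.Γ_mem h4))),
    self_mem_nhdsWithin] with w' h6 h7
  have h8 := h6 ((P.π_Γ (P.mem_ball' h2 h7)).trans (P.π_Γ h4).symm)
  exact ⟨h8.symm, h8⟩

end PC

/-! ### compact fibres -/

/-- psh functions on the open set `T` -/
def PshM (A : Atl n M) (T : Set M) (u : M → EReal) : Prop :=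
  ∀ i, IsPsh ((A.e i).target ∩ (A.e i).symm ⁻¹' T) fun z => u ((A.e i).symm z)

theorem PshM.usc {u : M → EReal} (hu : PshM A T u) (hT : IsOpen T) (hx : x ∈ T) :
    UpperSemicontinuousAt u x := by
  obtain ⟨i, hi⟩ := A.cover x
  intro a ha
  have h1 := (hu i).uscAt (isOpen_ti hT) (mem_ti hx hi) a (by
    simpa only [(A.e i).left_inv hi] using ha)
  filter_upwards [((A.e i).continuousAt hi).eventually h1, (A.e i).open_source.mem_nhds hi]
    with y h2 h3
  rwa [(A.e i).left_inv h3] at h2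

theorem Sbm.psh_comp (H : Sbm A T π) {u : M → EReal} (hu : PshM A T u) {c : Cn p}
    (hF : IsCompact {y | y ∈ T ∧ π y = c}) (a : {y | y ∈ T ∧ π y = c}) :
    connectedComponent a ∈ 𝓝 a ∧ ∀ b ∈ connectedComponent a, u b = u a := by
  have : CompactSpace {y | y ∈ T ∧ π y = c} := isCompact_iff_compactSpace.1 hF
  refine const_comp (u := fun b : {y | y ∈ T ∧ π y = c} => u b) (fun b t ht => ?_) (fun b => ?_)
    (fun b hb => ?_) a
  · exact continuous_subtype_val.continuousAt.eventually (hu.usc H.opn b.2.1 t ht)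
  · obtain ⟨i, hi⟩ := A.cover (b : M)
    obtain ⟨P⟩ := H.exists_pc b.2.1 hi
    refine ⟨Subtype.val ⁻¹' ((fun w => P.Γ (π b, w)) '' ball (P.κ b) P.ρ), ?_, ?_⟩
    · filter_upwards [continuous_subtype_val.continuousAt.eventually
        (P.Γ_inv.and (P.cont.eventually (ball_mem_nhds _ P.pos)))] with z hz
      exact ⟨_, hz.2, by rw [b.2.2.trans z.2.2.symm]; exact hz.1⟩
    · rw [← Topology.IsInducing.subtypeVal.isPreconnected_image, Subtype.image_preimage_coe,
        inter_eq_right.2]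
      · refine (convex_ball _ _).isPreconnected.image _ fun w hw => ?_
        exact (ContinuousAt.comp (f := fun w => (π b, w))
          (P.Γ_cont (P.mem_ball' (mem_ball_self P.pos) hw)) (by fun_prop)).continuousWithinAt
      · rintro _ ⟨w, hw, rfl⟩
        have h1 := P.mem_ball' (mem_ball_self P.pos) hw
        exact ⟨P.Γ_mem h1, (P.π_Γ h1).trans b.2.2⟩
  · obtain ⟨i, hi⟩ := A.cover (b : M)
    obtain ⟨P⟩ := H.exists_pc b.2.1 hi
    have h1 : IsPsh (ball (P.κ b) P.ρ) fun w => u (P.Γ (π b, w)) :=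
      Hol.comp_hol (φ := fun w => P.G (π b, w)) (isOpen_ti H.opn) (hu i)
        (fun w hw => (AnalyticAt.comp (g := P.G) (f := fun w => (π b, w))
          (P.an _ (P.mem_ball' (mem_ball_self P.pos) hw))
          (analyticAt_const.prod analyticAt_id)).differentiableAt.differentiableWithinAt)
        fun w hw => P.maps (P.mem_ball' (mem_ball_self P.pos) hw)
    have h2 : Tendsto (fun w => P.Γ (π b, w)) (𝓝 (P.κ b)) (𝓝[{y | y ∈ T ∧ π y = c}] b) := by
      refine tendsto_nhdsWithin_iff.2 ⟨?_, ?_⟩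
      · have := ContinuousAt.comp (f := fun w => (π b, w)) (x := P.κ b)
          (P.Γ_cont (mem_ball_self P.pos)) (by fun_prop)
        rwa [ContinuousAt, Function.comp_apply, P.Γ_self] at this
      · filter_upwards [ball_mem_nhds _ P.pos] with w hw
        have h1 := P.mem_ball' (mem_ball_self P.pos) hw
        exact ⟨P.Γ_mem h1, (P.π_Γ h1).trans b.2.2⟩
    have h3 : ∀ᶠ y in 𝓝[{y | y ∈ T ∧ π y = c}] (b : M), u y ≤ u b := by
      rw [nhdsWithin_eq_map_subtype_coe b.2]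
      exact hb
    have h4 := psh_smax h1 isOpen_ball (mem_ball_self P.pos) (by
      rw [P.Γ_self]; exact h2.eventually h3)
    rw [P.Γ_self] at h4
    filter_upwards [continuous_subtype_val.continuousAt.eventually
      (P.Γ_inv.and (P.cont.eventually h4))] with z hz
    rw [← hz.2, b.2.2.trans z.2.2.symm, hz.1]

/-- psh functions are locally constant on compact fibres -/
theorem Sbm.psh_lc (H : Sbm A T π) {u : M → EReal} (hu : PshM A T u) (hx : x ∈ T)
    (hF : IsCompact {y | y ∈ T ∧ π y = π x}) : ∀ᶠ z in 𝓝 x, π z = π x → u z = u x := by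
  obtain ⟨h1, h2⟩ := H.psh_comp hu hF ⟨x, hx, rfl⟩
  obtain ⟨S, hS, h3⟩ := (mem_nhds_subtype _ _ _).1 h1
  filter_upwards [hS, H.opn.mem_nhds hx] with z hz hzT e
  exact h2 ⟨z, hzT, e⟩ (h3 hz)

/-- psh functions are constant on compact connected fibres -/
theorem Sbm.psh_const (H : Sbm A T π) {u : M → EReal} (hu : PshM A T u) (hx : x ∈ T)
    (hF : IsCompact {y | y ∈ T ∧ π y = π x}) (hc : IsPreconnected {y | y ∈ T ∧ π y = π x})
    {y : M} (hy : y ∈ T) (e : π y = π x) : u y = u x := by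
  have := Subtype.preconnectedSpace hc
  exact (H.psh_comp hu hF ⟨x, hx, rfl⟩).2 ⟨y, hy, e⟩ (by
    rw [PreconnectedSpace.connectedComponent_eq_univ]; trivial)

theorem Sbm.hol_lc (H : Sbm A T π) {f : M → ℂ} (hf : ∀ i, HolAt A i T f) (hx : x ∈ T)
    (hF : IsCompact {y | y ∈ T ∧ π y = π x}) : ∀ᶠ z in 𝓝 x, π z = π x → f z = f x := by
  have h1 := H.psh_lc (u := fun y => ((f y).re : EReal))
    (fun i => isPsh_re (isOpen_ti H.opn) (hf i)) hx hF
  have h2 := H.psh_lc (u := fun y => ((I * f y).re : EReal))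
    (fun i => isPsh_re (isOpen_ti H.opn) ((hf i).const_mul I)) hx hF
  filter_upwards [h1, h2] with z a b e
  refine Complex.ext (EReal.coe_eq_coe_iff.1 (a e)) ?_
  simpa using EReal.coe_eq_coe_iff.1 (b e)

/-- holomorphic functions are locally holomorphic functions of `π` -/
theorem Sbm.fac (H : Sbm A T π) (hF : ∀ y ∈ T, IsCompact {z | z ∈ T ∧ π z = π y}) {f : M → ℂ}
    (hf : ∀ i, HolAt A i T f) (hx : x ∈ T) :
    ∃ F : Cn p → ℂ, AnalyticAt ℂ F (π x) ∧ ∀ᶠ z in 𝓝 x, f z = F (π z) := by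
  obtain ⟨i, hi⟩ := A.cover x
  obtain ⟨P⟩ := H.exists_pc hx hi
  refine ⟨fun y => f (P.Γ (y, P.κ x)), ?_, P.basic fun y hy => H.hol_lc hf hy (hF y hy)⟩
  exact AnalyticAt.comp (g := fun z => f ((A.e i).symm z)) (f := fun y => P.G (y, P.κ x))
    (holAt_an (hf i) H.opn _ (P.maps (mem_ball_self P.pos))) (P.sec_an (mem_ball_self P.pos))

/-! ### tubes -/

/-- proper holomorphic submersions over the unit ball -/
structure Tub (A : Atl n M) (T : Set M) (π : M → Cn p) : Prop extends Sbm A T π where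
  lt : ∀ y ∈ T, ‖π y‖ < 1
  prop : ∀ r < (1 : ℝ), IsCompact {y | y ∈ T ∧ ‖π y‖ ≤ r}

theorem tub_of_tube {G : Type} [Group G] [MulAction G M] (𝒯 : Tube A G p) (hx : x ∈ 𝒯.M0) :
    Tub A (𝒯.T x) (𝒯.π x) where
  opn := 𝒯.T_opn x hx
  hol := 𝒯.π_hol x hx
  subm := 𝒯.π_subm x hx
  lt _ hy := mem_ball_zero_iff.1 (𝒯.π_img x hx ▸ mem_image_of_mem _ hy)
  prop := 𝒯.π_prop x hx

theorem tube_conn {G : Type} [Group G] [MulAction G M] (𝒯 : Tube A G p) (hx : x ∈ 𝒯.M0) :
    ∀ y ∈ 𝒯.T x, IsPreconnected {z | z ∈ 𝒯.T x ∧ 𝒯.π x z = 𝒯.π x y} := fun y hy =>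
  𝒯.π_fib x hx y hy ▸ 𝒯.W_conn y (𝒯.T_sub x hx hy)

/-- preimages of closed subsets of smaller balls are compact -/
theorem Tub.cpt (H : Tub A T π) {C : Set (Cn p)} (hC : IsClosed C) {r : ℝ} (hr : r < 1)
    (h : ∀ y ∈ C, ‖y‖ ≤ r) : IsCompact {y | y ∈ T ∧ π y ∈ C} := by
  have h1 : CompactSpace {y | y ∈ T ∧ ‖π y‖ ≤ r} := isCompact_iff_compactSpace.1 (H.prop r hr)
  have h2 : Continuous fun y : {y | y ∈ T ∧ ‖π y‖ ≤ r} => π y :=
    (H.cont.mono fun y hy => hy.1).domRestrict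
  have h3 := (hC.preimage h2).isCompact.image continuous_subtype_val
  convert h3 using 1
  ext y
  exact ⟨fun hy => ⟨⟨y, hy.1, h _ hy.2⟩, hy.2, rfl⟩, by
    rintro ⟨z, hz, rfl⟩
    exact ⟨z.2.1, hz⟩⟩

theorem Tub.fib (H : Tub A T π) : ∀ y ∈ T, IsCompact {z | z ∈ T ∧ π z = π y} := fun y hy =>
  H.cpt (isClosed_singleton (x := π y)) (H.lt y hy) fun _ hz => le_of_eq (congrArg _ hz)

/-- **psh functions on a tube with connected fibres come from the base** -/
theorem Tub.basic (H : Tub A T π) (hc : ∀ y ∈ T, IsPreconnected {z | z ∈ T ∧ π z = π y})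
    {u : M → EReal} (hu : PshM A T u) :
    ∃ uB : Cn p → EReal, IsPsh (π '' T) uB ∧ ∀ y ∈ T, u y = uB (π y) := by
  classical
  let uB : Cn p → EReal := fun t => if h : t ∈ π '' T then u h.choose else ⊥
  have h1 : ∀ y ∈ T, u y = uB (π y) := fun y hy => by
    have h : π y ∈ π '' T := mem_image_of_mem _ hy
    simp only [uB, dif_pos h]
    exact (H.psh_const hu hy (H.fib y hy) (hc y hy) h.choose_spec.1 h.choose_spec.2).symm
  refine ⟨uB, IsPsh.of_nhds ?_, h1⟩
  rintro _ ⟨y, hy, rfl⟩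
  obtain ⟨i, hi⟩ := A.cover y
  obtain ⟨P⟩ := H.exists_pc hy hi
  refine ⟨ball (π y) P.ρ, ball_mem_nhds _ P.pos, IsPsh.congr
    (Hol.comp_hol (φ := fun t => P.G (t, P.κ y)) (isOpen_ti H.opn) (hu i)
      (fun t ht => (P.sec_an ht).differentiableAt.differentiableWithinAt)
      fun t ht => P.maps (P.mem_ball' ht (mem_ball_self P.pos))) fun t ht => ?_⟩
  have h2 := P.mem_ball' ht (mem_ball_self P.pos)
  exact (h1 _ (P.Γ_mem h2)).trans (congrArg uB (P.π_Γ h2))

end

end Crest.Agent.X261.Jet.Tb
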