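import Crest.Agent.T223.Hm7_77
import Crest.Agent.R273.BKNc_37

/-!
# Row 261, package JET (helper6), file `Fr`: unitary frames for polyvector fields

`rr h vol K v : M → EV n` represents a polyvector field `v` in a measurable unitary frame:
`⟪rr w x, rr v x⟫ = gl vol (inG K h v w) x`.
-/

set_option autoImplicit false
set_option linter.unusedSectionVars false

open Set Filter Topology Complex Matrix MeasureTheory
open scoped ContDiff Matrix ComplexConjugate ComplexOrder ENNReal InnerProductSpace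

namespace Crest.Agent.X261.Jet.Fr

open Crest.Agent.R275 Crest.Agent.R275.Geo Crest.Agent.R275.Core144
open Crest.Agent.R273.Defs_333 Crest.Agent.R273.Kah_333 Crest.Agent.R273.Vm_333
open Crest.Agent.R273.Fock_243 Crest.Agent.R273.Pos_243
open Crest.Agent.R273.BKNa_37 (IsV dbV)
open Crest.Agent.R273.BKNb_37 (inG inD)
open Crest.Agent.R273.BKNc_37 (inG_isD inD_isD)
open Crest.Agent.T223.Hm

noncomputable section

variable {n : ℕ} {M : Type} [TopologicalSpace M] {A : Atl n M} {N : LB A} [Countable A.ι]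

/-- values of polyvector fields -/
abbrev EV (n : ℕ) : Type := EuclideanSpace ℂ (FI n)

theorem cont_Gam : Continuous (Gam : Mx n → Matrix (FI n) (FI n) ℂ) := by
  refine continuous_pi fun S => continuous_pi fun T => ?_
  unfold Gam
  split_ifs
  · exact (continuous_id.matrix_submatrix _ _).matrix_det
  · exact continuous_const

/-- the Hermitian form of the metric on polyvectors -/
def gq (K : Kah A) (i : A.ι) (x : M) (y' y : FI n → ℂ) : ℂ := star y' ⬝ᵥ (Gam (K.g i x)ᵀ *ᵥ y)

variable (h : HM ((KB A)⁻¹ * N)) (vol : HM (KB A)⁻¹) (K : Kah A)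

/-- a polyvector in the chart `i`, in the unitary frame -/
def tV (i : A.ι) (x : M) (y : FI n → ℂ) : EV n :=
  WithLp.toLp 2 (o1 h vol i x • (Gam (O2 K i x) *ᵥ y))

/-- representative of a polyvector field -/
def rr (v : A.ι → M → FI n → ℂ) (x : M) : EV n := tV h vol K (ix A x) x (v (ix A x) x)

/-- the coefficients in the chart `i` -/
def uV (i : A.ι) (x : M) (u : EV n) : FI n → ℂ :=
  (o1 h vol i x)⁻¹ • (Gam (S2 K i x)ᴴ *ᵥ WithLp.ofLp u)

variable {i j : A.ι} {x : M}

theorem tV_un (hx : x ∈ (A.e i).source) (u : EV n) : tV h vol K i x (uV h vol K i x u) = u := by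
  rw [tV, uV, Matrix.mulVec_smul, smul_smul, mul_inv_cancel₀ (o1_ne h vol i x), one_smul,
    Matrix.mulVec_mulVec, Gam_mul_inv (O2_S2H K hx), Matrix.one_mulVec]

theorem un_tV (hx : x ∈ (A.e i).source) (y : FI n → ℂ) : uV h vol K i x (tV h vol K i x y) = y := by
  rw [tV, uV, Matrix.mulVec_smul, smul_smul, inv_mul_cancel₀ (o1_ne h vol i x), one_smul,
    Matrix.mulVec_mulVec, Gam_mul_inv (S2H_O2 K hx), Matrix.one_mulVec]


theorem tV_add (y y' : FI n → ℂ) :
    tV h vol K i x (y + y') = tV h vol K i x y + tV h vol K i x y' := by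
  rw [tV, Matrix.mulVec_add, smul_add]; rfl

theorem tV_smul (c : ℂ) (y : FI n → ℂ) : tV h vol K i x (c • y) = c • tV h vol K i x y := by
  rw [tV, Matrix.mulVec_smul, smul_comm]; rfl

theorem inner_tV (hx : x ∈ (A.e i).source) (y' y : FI n → ℂ) :
    ⟪tV h vol K i x y', tV h vol K i x y⟫_ℂ =
      ((vol.w i x : ℂ))⁻¹ * ((h.w i x : ℂ) * gq K i x y' y) := by
  rw [tV, tV, EuclideanSpace.inner_eq_star_dotProduct, dotProduct_comm, star_smul, smul_dotProduct,
    dotProduct_smul, smul_smul, star_def, o1_conj h vol hx, Matrix.star_mulVec,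
    ← Matrix.dotProduct_mulVec, Matrix.mulVec_mulVec, Gam_conjTranspose, ← Gam_mul, O2_sq K hx,
    smul_eq_mul, gq]
  push_cast
  ring

theorem norm_tV (hx : x ∈ (A.e i).source) (y : FI n → ℂ) :
    ‖tV h vol K i x y‖ ^ 2 = (vol.w i x)⁻¹ * (h.w i x * (gq K i x y y).re) := by
  rw [← inner_self_eq_norm_sq (𝕜 := ℂ), inner_tV h vol K hx, ← Complex.ofReal_inv]
  simp only [RCLike.re_to_complex, Complex.re_ofReal_mul]

theorem tV_law (hx : x ∈ (A.e i).source ∩ (A.e j).source) (y : FI n → ℂ) :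
    tV h vol K j x y = tV h vol K i x (N.g i j x • (Gam (Jm A j i x) *ᵥ y)) := by
  rw [tV, tV, Matrix.mulVec_smul, smul_smul, ← o1_law h vol hx, Matrix.mulVec_mulVec, ← Gam_mul,
    ← O2_law K hx]

theorem rr_eq {v : A.ι → M → FI n → ℂ} (hv : IsV N v) (hx : x ∈ (A.e i).source) :
    rr h vol K v x = tV h vol K i x (v i x) := by
  rw [rr, tV_law h vol K ⟨hx, ix_mem x⟩, ← hv.tr i _ x ⟨hx, ix_mem x⟩]

theorem inner_rr (v w : A.ι → M → FI n → ℂ) (x : M) :
    ⟪rr h vol K w x, rr h vol K v x⟫_ℂ = gl vol (inG K h v w) x := by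
  rw [rr, rr, inner_tV h vol K (ix_mem x), gl, Complex.real_smul, Complex.ofReal_inv]
  rfl

theorem norm_rr (v : A.ι → M → FI n → ℂ) (x : M) :
    ‖rr h vol K v x‖ ^ 2 = (gl vol (inG K h v v) x).re := by
  rw [← inner_rr, ← inner_self_eq_norm_sq (𝕜 := ℂ)]
  rfl

theorem gq_smul (r : ℝ) (y : FI n → ℂ) :
    (gq K i x (r • y) (r • y)).re = r ^ 2 * (gq K i x y y).re := by
  rw [gq, gq, star_smul, Matrix.mulVec_smul, smul_dotProduct, dotProduct_smul, smul_smul,
    Complex.smul_re, star_trivial, smul_eq_mul, sq]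

theorem gq_pos (hx : x ∈ (A.e i).source) {y : FI n → ℂ} (hy : y ≠ 0) : 0 < (gq K i x y y).re :=
  (Complex.pos_iff.1 ((Gam_posDef (posDef_gT K hx)).dotProduct_mulVec_pos hy)).1

theorem gq_nonneg (hx : x ∈ (A.e i).source) (y : FI n → ℂ) : 0 ≤ (gq K i x y y).re :=
  (Complex.nonneg_iff.1 ((Gam_posDef (posDef_gT K hx)).posSemidef.dotProduct_mulVec_nonneg y)).1

theorem contOn_G (i : A.ι) : ContinuousOn (fun x => Gam (K.g i x)ᵀ) (A.e i).source :=
  cont_Gam.comp_continuousOn (contOn_gT K i)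

theorem contOn_Gi (i : A.ι) : ContinuousOn (fun x => Gam ((K.g i x)ᵀ)⁻¹) (A.e i).source :=
  cont_Gam.comp_continuousOn (contOn_gTi K i)

theorem contOn_gq {X : Type*} [TopologicalSpace X] {s : Set X} {p : X → M} {y' y : X → FI n → ℂ}
    (hp : ContinuousOn p s) (hps : MapsTo p s (A.e i).source) (hy' : ContinuousOn y' s)
    (hy : ContinuousOn y s) : ContinuousOn (fun z => gq K i (p z) (y' z) (y z)) s := by
  have h1 : Continuous fun q : Matrix (FI n) (FI n) ℂ × (FI n → ℂ) × (FI n → ℂ) =>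
      star q.2.1 ⬝ᵥ (q.1 *ᵥ q.2.2) :=
    (continuous_fst.comp continuous_snd).star.dotProduct
      (continuous_fst.matrix_mulVec (continuous_snd.comp continuous_snd))
  exact h1.comp_continuousOn (f := fun z => (Gam (K.g i (p z))ᵀ, y' z, y z))
    (((contOn_G K i).comp hp hps).prodMk (hy'.prodMk hy))

/-- the adjoint with respect to `gq` -/
theorem gq_adj (hx : x ∈ (A.e i).source) (B : Matrix (FI n) (FI n) ℂ) (u y : FI n → ℂ) :
    gq K i x ((Gam ((K.g i x)ᵀ)⁻¹ * Bᴴ * Gam (K.g i x)ᵀ) *ᵥ u) y = gq K i x u (B *ᵥ y) := by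
  have hG : (Gam (K.g i x)ᵀ)ᴴ = Gam (K.g i x)ᵀ := (Gam_posDef (posDef_gT K hx)).isHermitian
  have hI : (Gam ((K.g i x)ᵀ)⁻¹)ᴴ = Gam ((K.g i x)ᵀ)⁻¹ :=
    (Gam_posDef (posDef_gT K hx).inv).isHermitian
  rw [gq, gq, Matrix.star_mulVec, ← Matrix.dotProduct_mulVec, Matrix.mulVec_mulVec,
    Matrix.mulVec_mulVec, Matrix.conjTranspose_mul, Matrix.conjTranspose_mul, hG, hI,
    Matrix.conjTranspose_conjTranspose, Matrix.mul_assoc, Matrix.mul_assoc,
    Gam_mul_inv (gT_inv_mul K hx), Matrix.mul_one]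

theorem gq_single (hx : x ∈ (A.e i).source) (c : ℂ) (T : FI n) (y : FI n → ℂ) :
    gq K i x (Gam ((K.g i x)ᵀ)⁻¹ *ᵥ Pi.single T c) y = conj c * y T := by
  have hI : (Gam ((K.g i x)ᵀ)⁻¹)ᴴ = Gam ((K.g i x)ᵀ)⁻¹ :=
    (Gam_posDef (posDef_gT K hx).inv).isHermitian
  rw [gq, Matrix.star_mulVec, ← Matrix.dotProduct_mulVec, Matrix.mulVec_mulVec, hI,
    Gam_mul_inv (gT_inv_mul K hx), Matrix.one_mulVec, ← Pi.single_star, single_dotProduct]
  rfl

/-! ### measurability -/

variable [T2Space M] [MeasurableSpace M] [BorelSpace M]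

theorem aesm_Gam {X : Type*} [MeasurableSpace X] {μ : Measure X} {P : X → Mx n}
    (hP : ∀ a b, AEStronglyMeasurable (fun x => P x a b) μ) (S T : FI n) :
    AEStronglyMeasurable (fun x => Gam (P x) S T) μ := by
  have h1 : Continuous fun p : Fin n × Fin n → ℂ => Gam (Matrix.of fun a b => p (a, b)) S T :=
    (continuous_apply T).comp ((continuous_apply S).comp (cont_Gam.comp
      (continuous_pi fun a => continuous_pi fun b => continuous_apply (a, b))))
  exact h1.comp_aestronglyMeasurable (aesm_pi (f := fun x p => P x p.1 p.2) fun p => hP p.1 p.2)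

theorem aesm_tV {μ : Measure M} {E : Set M} (hE : E ⊆ (A.e i).source) {y : M → FI n → ℂ}
    (hy : ∀ T, AEStronglyMeasurable (fun x => y x T) (μ.restrict E)) :
    AEStronglyMeasurable (fun x => tV h vol K i x (y x)) (μ.restrict E) := by
  have hm : μ.restrict E ≤ μ.restrict (A.e i).source := Measure.restrict_mono hE le_rfl
  refine aesm_toLp (f := fun x => o1 h vol i x • (Gam (O2 K i x) *ᵥ y x)) fun S => ?_
  simp only [Pi.smul_apply, smul_eq_mul, Matrix.mulVec, dotProduct]
  exact ((aesm_o1 h vol i μ).mono_measure hm).mul (Finset.aestronglyMeasurable_fun_sum _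
    fun T _ => ((aesm_Gam (aesm_O2 K i μ) S T).mono_measure hm).mul (hy T))

theorem aesm_un {μ : Measure M} {q : M → EV n} (hq : AEStronglyMeasurable q μ) (T : FI n) :
    AEStronglyMeasurable (fun x => uV h vol K i x (q x) T) (μ.restrict (A.e i).source) := by
  simp only [uV, Pi.smul_apply, smul_eq_mul, Matrix.mulVec, dotProduct]
  refine (aesm_o1 h vol i _).aemeasurable.inv.aestronglyMeasurable.mul
    (Finset.aestronglyMeasurable_fun_sum _ fun S _ => (aesm_Gam (fun a b => ?_) T S).mul ?_)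
  · exact continuous_star.comp_aestronglyMeasurable (aesm_S2 K i _ b a)
  · exact ((EuclideanSpace.proj (𝕜 := ℂ) S).continuous.comp_aestronglyMeasurable hq).restrict

theorem contOn_V {v : A.ι → M → FI n → ℂ} (hv : IsV N v) (i : A.ι) :
    ContinuousOn (v i) (A.e i).source := continuousOn_pi.2 fun T => contOn_smAt (hv.sm i T)

theorem aesm_of_cont {μ : Measure M} {E : Set M} (hE : E ⊆ (A.e i).source) {y : M → FI n → ℂ}
    (hy : ContinuousOn y (A.e i).source) (T : FI n) :
    AEStronglyMeasurable (fun x => y x T) (μ.restrict E) :=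
  ((continuousOn_pi.1 hy T).aemeasurable
    (A.e i).open_source.measurableSet).aestronglyMeasurable.mono_measure
      (Measure.restrict_mono hE le_rfl)

theorem aesm_rr {v : A.ι → M → FI n → ℂ} (hv : IsV N v) (μ : Measure M) :
    AEStronglyMeasurable (rr h vol K v) μ := by
  have h1 : (⋃ i, (A.e i).source) = univ := eq_univ_of_forall fun x => mem_iUnion.2 (A.cover x)
  rw [← Measure.restrict_univ (μ := μ), ← h1, aestronglyMeasurable_iUnion_iff]
  intro i
  refine (aesm_tV h vol K subset_rfl (aesm_of_cont subset_rfl (contOn_V hv i))).congr ?_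
  filter_upwards [ae_restrict_mem (A.e i).open_source.measurableSet] with x hx
  exact (rr_eq h vol K hv hx).symm

theorem memLp_rr {v : A.ι → M → FI n → ℂ} (hv : IsV N v) (hc : Cs v) :
    MemLp (rr h vol K v) 2 (vm vol) := by
  obtain ⟨C, hC, h0⟩ := hc
  exact memLp_of_isD vol (aesm_rr h vol K hv _) (inG_isD (K := K) h hv hv) hC
    (fun i x _ hx' => by simp [inG, h0 i x hx']) fun x => by rw [norm_rr, gl_re]

/-- a continuous polyvector in a chart, cut to a measurable set -/
def lcV (i : A.ι) (E : Set M) (y : M → FI n → ℂ) : M → EV n :=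
  E.indicator fun x => tV h vol K i x (y x)

theorem memLp_loc' {E C : Set M} (hE : MeasurableSet E) (hC : IsCompact C) (hEC : E ⊆ C)
    (hs : C ⊆ (A.e i).source) {y : M → FI n → ℂ} (hy : ContinuousOn y C) :
    MemLp (lcV h vol K i E y) 2 (vm vol) := by
  have := isLocallyFinite_vm vol
  have : IsFiniteMeasure ((vm vol).restrict E) :=
    isFiniteMeasure_restrict.2 ((measure_mono hEC).trans_lt hC.measure_lt_top).ne
  rw [lcV, memLp_indicator_iff_restrict hE]
  have hc : ContinuousOn (fun x => (vol.w i x)⁻¹ * (h.w i x * (gq K i x (y x) (y x)).re)) C :=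
    (((contOn_smAt (vol.sm i)).inv₀ fun x hx => (vol.pos i x hx).ne').mono hs).mul
      (((contOn_smAt (h.sm i)).mono hs).mul (Complex.continuous_re.comp_continuousOn
        (contOn_gq K continuousOn_id hs hy hy)))
  obtain ⟨B, hB⟩ := hC.exists_bound_of_continuousOn hc
  refine MemLp.of_bound (aesm_tV h vol K (hEC.trans hs) fun T =>
    ((continuousOn_pi.1 hy T).aemeasurable hC.measurableSet).aestronglyMeasurable.mono_measure
      (Measure.restrict_mono hEC le_rfl)) (Real.sqrt B) ?_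
  filter_upwards [ae_restrict_mem hE] with x hx
  refine Real.le_sqrt_of_sq_le ?_
  rw [norm_tV h vol K (hs (hEC hx))]
  exact (le_abs_self _).trans (hB x (hEC hx))

theorem memLp_loc {E C : Set M} (hE : MeasurableSet E) (hC : IsCompact C) (hEC : E ⊆ C)
    (hs : C ⊆ (A.e i).source) {y : M → FI n → ℂ} (hy : ContinuousOn y (A.e i).source) :
    MemLp (lcV h vol K i E y) 2 (vm vol) := memLp_loc' h vol K hE hC hEC hs (hy.mono hs)

end

end Crest.Agent.X261.Jet.Fr
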