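import Crest.Agent.X261.Jet.HL
import Crest.Agent.X261.Hc.DemB
import Crest.Agent.X277.AN.LSE
import Crest.Agent.T223.Rich1_37
import Crest.Agent.X261.Jet.TbC
import Crest.Agent.R273.FS_333
import Crest.Agent.X261.Jet.TbI
import Crest.Agent.R269.Amp4_243

-- ▼ part X261/Jet/St2
section

/-!
# Row 261, package JET (helper6), file `St2`: the weight `N f + max (g + a, f + θ)` and the
second step of the construction of sections
-/

set_option autoImplicit false
set_option linter.unusedSectionVars false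
set_option linter.style.haveILetI false

open Set Filter Topology Complex Matrix MeasureTheory
open scoped ContDiff Matrix ComplexConjugate ComplexOrder ENNReal

namespace Crest.Agent.X261.Jet.St2

open Crest.Agent.R275 Crest.Agent.R275.Geo Crest.Agent.R275.Core144
open Crest.Agent.R273.Defs_333 Crest.Agent.R273.HM_333 Crest.Agent.R273.Kah_333
open Crest.Agent.R273.Vm_333 Crest.Agent.R273.Fock_243
open Crest.Agent.R273.LamN127 Crest.Agent.R273.DVec_733 Crest.Agent.R273.DMetB_733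
open Crest.Agent.R273.BKNa_37 (IsV)
open Crest.Agent.T223.Hm (gl Cs Cut hq)
open Crest.Agent.T223.Rich (SM ss SM_hasDerivAt SM_contDiff SM_mono SM_nonneg ss_contDiff ss_nonneg
  ss_le_one ss_zero ss_one deriv_ss_nonneg)
open Crest.Agent.X277.AN (qf gq sm_add sm_sub sm_cmul sm_comp sm_const qh_add qh_sub qh_cmul
  qh_comp qh_add_const gq_nonneg qf_nonneg)
open Crest.Agent.X261.Hc (hq_eq_qf)
open Crest.Agent.X261.Hs Crest.Agent.X261.Jet.Fr Crest.Agent.X261.Jet.HL

noncomputable section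

theorem smx_mono {a a' b b' : ℝ} (ha : a ≤ a') (hb : b ≤ b') :
    b + SM (a - b) ≤ b' + SM (a' - b') := by
  have hd : ∀ s, HasDerivAt (fun s => SM s - s) (ss s - 1) s := fun s =>
    (SM_hasDerivAt s).sub (hasDerivAt_id s)
  have h1 : Antitone fun s => SM s - s :=
    antitone_of_deriv_nonpos (fun s => (hd s).differentiableAt) fun s => by
      rw [(hd s).deriv]; linarith [ss_le_one s]
  have h2 := h1 (show a - b' ≤ a - b by linarith)
  have h3 := SM_mono (show a - b' ≤ a' - b' by linarith)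
  simp only at h2
  linarith

variable {n : ℕ} {M : Type} [TopologicalSpace M] {A : Atl n M} {N L : LB A}

/-- the argument of the regularised maximum -/
def tt (f g θ : M → ℝ) (a : ℝ) (x : M) : ℝ := g x + a - (f x + θ x)

/-- the weight `k f + max (g + a, f + θ)` -/
def UU (k : ℝ) (f g θ : M → ℝ) (a : ℝ) (x : M) : ℝ := k * f x + (f x + θ x + SM (tt f g θ a x))

section pt

variable {f g θ : M → ℝ} (hf : A.Sm f) (hg : A.Sm g) (hθ : A.Sm θ) (k a : ℝ)
include hf hg hθ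

theorem sm_tt : A.Sm (tt f g θ a) := sm_sub (sm_add hg (sm_const a)) (sm_add hf hθ)

theorem sm_UU : A.Sm (UU k f g θ a) :=
  sm_add (sm_cmul k hf) (sm_add (sm_add hf hθ) (sm_comp SM_contDiff (sm_tt hf hg hθ a)))

theorem qf_UU {i : A.ι} {x : M} (hx : x ∈ (A.e i).source) (ξ : Fin n → ℂ) :
    qf (hsf A (UU k f g θ a) i x) ξ = (k + 1 - ss (tt f g θ a x)) * qf (hsf A f i x) ξ +
      ss (tt f g θ a x) * qf (hsf A g i x) ξ + (1 - ss (tt f g θ a x)) * qf (hsf A θ i x) ξ +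
      deriv ss (tt f g θ a x) * gq A (tt f g θ a) i x ξ := by
  have h1 := qh_comp (φ := SM) (φ' := ss) (sm_tt hf hg hθ a) hx
    (Eventually.of_forall SM_hasDerivAt)
    ((ss_contDiff.differentiable (by simp)).differentiableAt.hasDerivAt) ξ
  have h2 : qf (hsf A (tt f g θ a) i x) ξ =
      qf (hsf A g i x) ξ - (qf (hsf A f i x) ξ + qf (hsf A θ i x) ξ) := by
    rw [← qh_add hf hθ hx, ← qh_add_const hg a hx]
    exact qh_sub (sm_add hg (sm_const a)) (sm_add hf hθ) hx ξ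
  have h3 := qh_add (sm_cmul k hf) (sm_add (sm_add hf hθ) (sm_comp SM_contDiff (sm_tt hf hg hθ a)))
    hx ξ
  rw [qh_add (sm_add hf hθ) (sm_comp SM_contDiff (sm_tt hf hg hθ a)) hx, qh_cmul k hf hx,
    qh_add hf hθ hx, h1, h2] at h3
  refine Eq.trans h3 ?_
  ring

/-- the curvature of the weight -/
theorem Th_UU (K : Kah A) (h : HM L) {N' : LB A} (h' : HM N') (hk : 0 ≤ k) {i : A.ι} {x : M}
    (hx : x ∈ (A.e i).source) {ξ : Fin n → ℂ}
    (hc : hq (cur h' i x) ξ = (k + 1) * hq (cur h i x) ξ) {e l m : ℝ} (hl : 0 ≤ l) (hm : 0 ≤ m)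
    (p1 : 0 ≤ Th K h f (e + l) i x ξ) (p2 : 0 ≤ Th K h g (e + m) i x ξ) :
    (1 - ss (tt f g θ a x)) * hq (hsf A θ i x) ξ ≤
      Th K h' (UU k f g θ a) ((k + 1) * e + ((k + 1) * l + m)) i x ξ := by
  unfold Th at *
  rw [hc]
  simp only [hq_eq_qf] at *
  rw [qf_UU hf hg hθ k a hx]
  have s0 := ss_nonneg (tt f g θ a x)
  have s1 := ss_le_one (tt f g θ a x)
  have g0 := qf_nonneg (K.pos i x hx).posSemidef ξ
  have m1 := mul_nonneg (show 0 ≤ k + 1 - ss (tt f g θ a x) by linarith) p1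
  have m2 := mul_nonneg s0 p2
  have m3 := mul_nonneg (deriv_ss_nonneg (tt f g θ a x)) (gq_nonneg (tt f g θ a) i x ξ)
  have m4 := mul_nonneg (mul_nonneg s0 hl) g0
  have m5 := mul_nonneg (mul_nonneg (sub_nonneg.2 s1) hm) g0
  nlinarith

end pt

variable [Countable A.ι] [T2Space M] [MeasurableSpace M] [BorelSpace M]
  {K : Kah A} {h : HM L} {vol : HM (KB A)⁻¹} {f lf g lg : ℕ → ℕ → M → ℝ} {eps : ℕ → ℝ} {C0 : ℝ}

theorem shift (F : WS K h vol f lf eps C0) (m : ℕ → ℕ) :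
    WS K h vol (fun ν μ => f ν (μ + m ν)) (fun ν μ => lf ν (μ + m ν)) eps C0 where
  sm ν _ := F.sm ν _
  anti ν x _ _ hab := F.anti ν x (Nat.add_le_add_right hab _)
  le ν x := (F.anti ν x (Nat.zero_le _)).trans (F.le ν x)
  lm ν _ := F.lm ν _
  l0 ν _ := F.l0 ν _
  lb ν := (F.lb ν).imp fun _ hC _ => hC _
  lim ν := (F.lim ν).mono fun _ hx => hx.comp (tendsto_add_atTop_nat (m ν))
  e0 := F.e0
  elim := F.elim
  pos ν _ := F.pos ν _

theorem ws_UU (F : WS K h vol f lf eps C0) (G : WS K h vol g lg eps C0) {N' : LB A} (h' : HM N')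
    {k : ℝ} (hk : 0 ≤ k)
    (hc : ∀ i, ∀ x ∈ (A.e i).source, ∀ ξ, hq (cur h' i x) ξ = (k + 1) * hq (cur h i x) ξ)
    {θ : M → ℝ} (hθ : A.Sm θ) (θ1 : ∀ x, θ x ≤ 1) (W : Set M) (a : ℝ)
    (off : ∀ ν μ, ∀ x ∉ W, f ν μ x - a ≤ g ν μ x)
    (psh : ∀ i, ∀ x ∈ (A.e i).source, x ∈ W → ∀ ξ, 0 ≤ hq (hsf A θ i x) ξ) :
    WS K h' vol (fun ν μ => UU k (f ν μ) (g ν μ) θ (a + 2))
      (fun ν μ x => (k + 1) * lf ν μ x + lg ν μ x) (fun ν => (k + 1) * eps ν)
      (k * C0 + (C0 + 1 + SM (C0 + (a + 2) - (C0 + 1)))) where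
  sm ν μ := sm_UU (F.sm ν μ) (G.sm ν μ) hθ k _
  anti ν x _ _ hab := add_le_add (mul_le_mul_of_nonneg_left (F.anti ν x hab) hk)
    (smx_mono (add_le_add (G.anti ν x hab) le_rfl) (add_le_add (F.anti ν x hab) le_rfl))
  le ν x := add_le_add (mul_le_mul_of_nonneg_left (F.le ν x) hk)
    (smx_mono (add_le_add (G.le ν x) le_rfl) (add_le_add (F.le ν x) (θ1 x)))
  lm ν μ := ((F.lm ν μ).const_mul _).add (G.lm ν μ)
  l0 ν μ x := add_nonneg (mul_nonneg (by linarith) (F.l0 ν μ x)) (G.l0 ν μ x)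
  lb ν := by
    obtain ⟨c, h1⟩ := F.lb ν
    obtain ⟨d, h2⟩ := G.lb ν
    exact ⟨(k + 1) * c + d, fun μ x =>
      add_le_add (mul_le_mul_of_nonneg_left (h1 μ x) (by linarith)) (h2 μ x)⟩
  lim ν := by
    filter_upwards [F.lim ν, G.lim ν] with x h1 h2
    simpa using (h1.const_mul (k + 1)).add h2
  e0 ν := mul_nonneg (by linarith) (F.e0 ν)
  elim := by simpa using F.elim.const_mul (k + 1)
  pos ν μ i x hx ξ := by
    refine le_trans ?_ (Th_UU (F.sm ν μ) (G.sm ν μ) hθ k (a + 2) K h h' hk hx (hc i x hx ξ)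
      (F.l0 ν μ x) (G.l0 ν μ x) (F.pos ν μ i x hx ξ) (G.pos ν μ i x hx ξ))
    by_cases hW : x ∈ W
    · exact mul_nonneg (sub_nonneg.2 (ss_le_one _)) (psh i x hx hW ξ)
    · rw [ss_one, sub_self, zero_mul]
      have := off ν μ x hW
      have := θ1 x
      unfold tt
      linarith

theorem vm_diff {E : Set M} {G : ℕ → Set M} (hE : MeasurableSet E) (hG : ∀ μ, MeasurableSet (G μ))
    (hf : vm vol E ≠ ⊤) (hl : ∀ᵐ x ∂(vm vol), x ∈ E → ∀ᶠ μ in atTop, x ∈ G μ) :
    Tendsto (fun μ => vm vol (E \ G μ)) atTop (𝓝 0) := by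
  have h1 := tendsto_lintegral_of_dominated_convergence (μ := vm vol)
    (F := fun μ => (E \ G μ).indicator 1) (f := fun _ => 0) (E.indicator 1)
    (fun μ => measurable_one.indicator (hE.diff (hG μ)))
    (fun μ => Eventually.of_forall fun x => indicator_le_indicator_of_subset sdiff_subset
      (fun _ => zero_le) x) (by rwa [lintegral_indicator_one hE]) (hl.mono fun x hx => ?_)
  · simpa only [lintegral_indicator_one (hE.diff (hG _)), lintegral_zero] using h1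
  · refine tendsto_const_nhds.congr' ?_
    by_cases hx' : x ∈ E
    · filter_upwards [hx hx'] with μ hμ
      rw [indicator_of_notMem fun h => h.2 hμ]
    · exact Eventually.of_forall fun μ => (indicator_of_notMem (fun h => hx' h.1) _).symm

/-- **step (2)** : a closed functional bounded for the weight `(k+1) φ` is represented by a
holomorphic field which is killed by the covectors `b j` where `S - φ` is very negative -/
theorem st2 (P : Part A) (hcut : Cut K) (F : WS K h vol f lf eps C0) (G : WS K h vol g lg eps C0)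
    (h' : HM ((KB A)⁻¹ * N)) {k : ℝ} (hk : 0 ≤ k)
    (hc : ∀ i, ∀ x ∈ (A.e i).source, ∀ ξ, hq (cur h' i x) ξ = (k + 1) * hq (cur h i x) ξ)
    {φ S : M → ℝ} (hφ : Measurable φ) (hS : Measurable S)
    (lim : ∀ ν, ∀ᵐ x ∂(vm vol), Tendsto (fun μ => g ν μ x - f ν μ x) atTop (𝓝 (S x - φ x)))
    (lef : ∀ ν μ, ∀ᵐ x ∂(vm vol), φ x ≤ f ν μ x) (W : Set M) (a : ℝ)
    (off : ∀ ν, ∀ᶠ μ in atTop, ∀ x ∉ W, f ν μ x - a ≤ g ν μ x)
    {θ : M → ℝ} (hθ : A.Sm θ) (θ0 : ∀ x, 0 ≤ θ x) (θ1 : ∀ x, θ x ≤ 1)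
    (psh : ∀ i, ∀ x ∈ (A.e i).source, x ∈ W → ∀ ξ, 0 ≤ hq (hsf A θ i x) ξ)
    {C : Set M} (hC : IsCompact C) {i : A.ι} (hi : C ⊆ (A.e i).source) {ι : Type}
    {b : ι → M → Fin n → ℂ} (hb : ∀ j, ContinuousOn (b j) C)
    (hbθ : ∀ j, ∀ x ∈ C, ∀ ξ : Fin n → ℂ, ‖∑ a, b j x a * ξ a‖ ^ 2 ≤ hq (hsf A θ i x) ξ)
    (Λ : CS (BN N) →ₗ[ℂ] ℂ) (hΛ : ∀ u, Λ (TsC K h' u) = 0) {D : ℝ} (hD : 0 ≤ D)
    (hB : ∀ (w : MV N) (hw : Cs w.1) (U : M → ℝ), Continuous U →
      (∀ᵐ x ∂(vm vol), (k + 1) * φ x ≤ U x) → ‖Λ (lowC K w hw)‖ ^ 2 ≤ D * nW K h' vol U w.1) :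
    ∃ V : A.ι → M → FI n → ℂ, IsV N V ∧ (∀ i T, HolAt A i univ fun x => V i x T) ∧
      MemLp (rr h' vol K V) 2 (vm vol) ∧
      (∀ (w : MV N) (hw : Cs w.1), dlt h' w = 0 → pr K h' vol V w.1 = Λ (lowC K w hw)) ∧
      ∀ j, ∀ᵐ x ∂(vm vol), x ∈ C → S x - φ x < -(a + 3) → iW (b j x) *ᵥ V i x = 0 := by
  haveI := isLocallyFinite_vm vol
  choose m hm using fun ν => eventually_atTop.1 (off ν)
  have F' := shift F m
  have G' := shift G m
  have W' := ws_UU F' G' h' hk hc hθ θ1 W a (fun ν μ => hm ν _ (Nat.le_add_left _ _)) psh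
  have hE : MeasurableSet (C ∩ {x | S x - φ x < -(a + 3)}) :=
    hC.measurableSet.inter (measurableSet_lt (hS.sub hφ) measurable_const)
  have hG : ∀ ν μ, MeasurableSet {x | tt (f ν (μ + m ν)) (g ν (μ + m ν)) θ (a + 2) x ≤ -1} :=
    fun ν μ => measurableSet_le (sm_continuous (sm_tt (F.sm _ _) (G.sm _ _) hθ _)).measurable
      measurable_const
  obtain ⟨V, O⟩ := hl n M A P K hcut N h' vol _ _ _ _ W' Λ hΛ (Real.sqrt D) (Real.sqrt_nonneg D)
    (fun ν μ w hw => by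
      rw [Real.sq_sqrt hD]
      refine hB w hw _ (sm_continuous (W'.sm ν μ)) ((lef ν (μ + m ν)).mono fun x hx => ?_)
      have h1 := mul_le_mul_of_nonneg_left hx hk
      have h2 := SM_nonneg (tt (f ν (μ + m ν)) (g ν (μ + m ν)) θ (a + 2) x)
      have h3 := θ0 x
      unfold UU
      linarith) _ _ hE hG fun ν => vm_diff hE (hG ν)
      ((measure_mono inter_subset_left).trans_lt hC.measure_lt_top).ne ((lim ν).mono fun x hx hx' => by
        filter_upwards [(hx.comp (tendsto_add_atTop_nat (m ν))).eventually (gt_mem_nhds hx'.2)]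
          with μ hμ
        have h3 := θ0 x
        simp only [Function.comp_apply] at hμ
        show tt _ _ _ _ x ≤ -1
        unfold tt
        linarith)
  refine ⟨V, O.isV, O.hol, O.mem, O.rep, fun j => ?_⟩
  refine (O.null i C hC hi (b j) (hb j) fun ν μ x hx ξ => ?_).mono fun x hx h1 h2 =>
    hx ⟨⟨h1, h2⟩, h1⟩
  refine (hbθ j x hx.2 ξ).trans (le_trans (le_of_eq ?_) (Th_UU (F'.sm ν μ) (G'.sm ν μ) hθ k (a + 2)
    K h h' hk (hi hx.2) (hc i x (hi hx.2) ξ) (F'.l0 ν μ x) (G'.l0 ν μ x)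
    (F'.pos ν μ i x (hi hx.2) ξ) (G'.pos ν μ i x (hi hx.2) ξ)))
  rw [ss_zero hx.1.2, sub_zero, one_mul]

end

end Crest.Agent.X261.Jet.St2
end

-- ▼ part X261/Jet/Pre
section

/-!
# Row 261, package JET (helper6), file `Pre`: powers of a metric, the function `|π|²`, and the set
where the pole is seen
-/

set_option autoImplicit false
set_option linter.unusedSectionVars false
set_option linter.style.haveILetI false

open Set Filter Topology Complex Matrix MeasureTheory Metric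
open scoped ContDiff Matrix ComplexConjugate ComplexOrder ENNReal

namespace Crest.Agent.X261.Jet.Pre

open Crest.Agent.R275 Crest.Agent.R275.Geo Crest.Agent.R275.Core144
open Crest.Agent.R273.Defs_333 Crest.Agent.R273.HM_333 Crest.Agent.R273.Kah_333
open Crest.Agent.R273.Vm_333 Crest.Agent.R273.Fock_243
open Crest.Agent.T223.Hm (hq)
open Crest.Agent.X277.AN (qf qf_csmul hsf_congr)
open Crest.Agent.X261.Hc (hq_eq_qf)
open Crest.Agent.X261.Jet.Tb
open Crest.Agent.X261.Top (eN)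

noncomputable section

variable {n p : ℕ} {M : Type} [TopologicalSpace M] {A : Atl n M} {L : LB A}

/-- the metric `h ^ k` -/
def hP (h : HM L) (k : ℕ) : HM ((KB A)⁻¹ * (KB A * L ^ k)) where
  w i x := h.w i x ^ k
  pos i x hx := pow_pos (h.pos i x hx) _
  sm i := (h.sm i).pow _
  tr i j x hx := by
    rw [inv_mul_cancel_left, LB_pow_g, h.tr i j x hx, norm_pow, mul_pow]
    ring

theorem cur_hP (h : HM L) (k : ℕ) (i : A.ι) {x : M} (hx : x ∈ (A.e i).source) (ξ : Fin n → ℂ) :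
    hq (cur (hP h k) i x) ξ = k * hq (cur h i x) ξ := by
  have e : cur (hP h k) i x = cur (pow h k) i x := by
    unfold cur HM.wt
    simp only [pow_w]
    rfl
  rw [e, cur_pow h k i hx, hq_eq_qf, hq_eq_qf, ← qf_csmul, Complex.ofReal_natCast]

variable {T : Set M} {π : M → Cn p}

theorem sm_ind [T2Space M] (H : Tub A T π) {W : Type*} [NormedAddCommGroup W] [NormedSpace ℝ W]
    {Φ : Cn p → W} (hΦ : ContDiff ℝ ∞ Φ) {r : ℝ} (hr : r < 1) (h0 : ∀ t, r < ‖t‖ → Φ t = 0) :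
    A.Sm (T.indicator fun x => Φ (π x)) := by
  intro i z hz
  have hi := (A.e i).map_target hz
  rw [← (A.e i).right_inv hz]
  refine ContDiffAt.contDiffWithinAt ?_
  by_cases hx : (A.e i).symm z ∈ T
  · refine (hΦ.contDiffAt.comp _
      (((H.anAt hx hi).contDiffAt (n := ∞)).restrict_scalars ℝ)).congr_of_eventuallyEq ?_
    filter_upwards [ev_read hi (H.opn.mem_nhds hx)] with w hw
    exact indicator_of_mem hw _
  · refine (contDiffAt_const (c := (0 : W))).congr_of_eventuallyEq ?_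
    filter_upwards [ev_read hi ((H.prop r hr).isClosed.isOpen_compl.mem_nhds fun h => hx h.1)]
      with w hw
    by_cases h : (A.e i).symm w ∈ T
    · rw [indicator_of_mem h]
      exact h0 _ (not_le.1 fun h' => hw ⟨h, h'⟩)
    · exact indicator_of_notMem h _

theorem hq_nsq (H : Sbm A T π) {θ : M → ℝ} {i : A.ι} {x : M} (hx : x ∈ T)
    (hi : x ∈ (A.e i).source) (e : θ =ᶠ[𝓝 x] fun y => ‖π y‖ ^ 2) (ξ : Fin n → ℂ) :
    hq (hsf A θ i x) ξ = ∑ k, ‖∑ a, dp A i π x k a * ξ a‖ ^ 2 := by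
  rw [hsf_congr hi e, hq_eq_qf]
  have e1 : (fun z => ‖π ((A.e i).symm z)‖ ^ 2) =
      R273.FS_333.sq fun z k => π ((A.e i).symm z) k :=
    funext fun z => EuclideanSpace.norm_sq_eq _
  have e2 : ∀ a b, hsf A (fun y => ‖π y‖ ^ 2) i x a b =
      ∑ k, dp A i π x k a * conj (dp A i π x k b) := fun a b => by
    refine Eq.trans (congrArg (fun u => R273.Hess_333.hess u (A.e i x) a b) e1) ?_
    refine (R273.FS_333.hess_sq (isOpen_ti H.opn) (fun k => H.holAt i k) (mem_ti hx hi) a b).trans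
      (Finset.sum_congr rfl fun k _ => ?_)
    have h1 := ((H.holAt i k).diffAt H.opn hi hx)
    rw [← OmT75.dj_holo h1, ← OmT75.dj_holo h1]
    rfl
  unfold qf
  simp only [e2, ← Complex.normSq_eq_norm_sq]
  rw [← Complex.ofReal_re (∑ _, _)]
  congr 1
  simp only [Complex.ofReal_sum, ← Complex.mul_conj, map_sum, map_mul, Finset.sum_mul,
    Finset.mul_sum]
  rw [Finset.sum_comm]
  refine (Finset.sum_congr rfl fun b _ => Finset.sum_comm).trans ?_
  rw [Finset.sum_comm]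
  refine Finset.sum_congr rfl fun k _ => Finset.sum_congr rfl fun a _ =>
    Finset.sum_congr rfl fun b _ => ?_
  ring

/-- the function `|π|²`, cut off -/
theorem exists_theta [T2Space M] (H : Tub A T π) {r : ℝ} (h0 : 0 < r) (hr : r < 1) :
    ∃ θ : M → ℝ, A.Sm θ ∧ (∀ x, 0 ≤ θ x) ∧ (∀ x, θ x ≤ 1) ∧ ∀ i, ∀ x ∈ (A.e i).source, x ∈ T →
      ‖π x‖ < r → ∀ ξ, hq (hsf A θ i x) ξ = ∑ k, ‖∑ a, dp A i π x k a * ξ a‖ ^ 2 := by
  let b : ContDiffBump (0 : Cn p) := ⟨r, (r + 1) / 2, h0, by linarith⟩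
  refine ⟨T.indicator fun x => b (π x) * ‖π x‖ ^ 2,
    sm_ind H (Φ := fun t => b t * ‖t‖ ^ 2) (b.contDiff.mul (contDiff_norm_sq ℝ))
      (r := (r + 1) / 2) (by linarith) fun t ht => ?_,
    fun x => indicator_nonneg (fun y _ => mul_nonneg b.nonneg (sq_nonneg _)) x, fun x => ?_,
    fun i x hi hx h1 ξ => hq_nsq H.toSbm hx hi ?_ ξ⟩
  · rw [b.zero_of_le_dist (by rw [dist_zero_right]; exact ht.le), zero_mul]
  · by_cases hx : x ∈ T
    · rw [indicator_of_mem hx]
      exact mul_le_one₀ b.le_one (sq_nonneg _) (pow_le_one₀ (norm_nonneg _) (H.lt x hx).le)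
    · rw [indicator_of_notMem hx]
      exact zero_le_one
  · filter_upwards [H.opn.mem_nhds hx, (H.contAt hx).norm.eventually (gt_mem_nhds h1)] with y h2 h3
    rw [indicator_of_mem h2, b.one_of_mem_closedBall (mem_closedBall_zero_iff.2 h3.le), one_mul]

/-! ### the pole is seen on a set of positive measure -/



end

end Crest.Agent.X261.Jet.Pre
end

-- ▼ part X261/Jet/TbF
section

/-!
# Row 261, JET/Tube (helper5), file `TbF`: semipositive weights on a tube come from the base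

* `psh_bas`   : `φ = φB ∘ π + log |u|²_h` with `φB` psh;
* `int_tube`  : integrability of `e^{-c φ}` near one point spreads to a small tube;
* `pole_tube` : a pole at one point spreads to a pole along the central fibre.
-/

set_option autoImplicit false
set_option linter.unusedSectionVars false

open Set Filter Topology Complex Matrix MeasureTheory Metric
open scoped ContDiff Matrix ComplexConjugate ENNReal

namespace Crest.Agent.X261.Jet.Tb

open Crest.Agent.R275 Crest.Agent.R275.Geo Crest.Agent.R275.Core144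
open Crest.Agent.R273.Defs_333 Crest.Agent.R273.Fock_243 Crest.Agent.R273.Vm_333
open Crest.Agent.T223.Hm
open Crest.Agent.X261.Top Crest.Agent.X261.Psh

noncomputable section

variable {n p : ℕ} {M : Type} [TopologicalSpace M] {A : Atl n M} {T : Set M} {π : M → Cn p}
  {L : LB A} {u : A.ι → M → ℂ}

namespace F5

theorem eN_coe (N x : ℝ) : eN N x = ENNReal.ofReal (Real.exp (-(N * x))) := by
  rw [eN, ← EReal.coe_mul, ← EReal.coe_neg, EReal.exp_coe]

theorem eN_bot {N : ℝ} (hN : 0 < N) : eN N ⊥ = ⊤ := by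
  simp [eN, EReal.mul_bot_of_pos (EReal.coe_pos.2 hN)]

theorem eN_add {N : ℝ} (hN : 0 < N) (a : EReal) (x : ℝ) :
    eN N (a + x) = ENNReal.ofReal (Real.exp (-(N * x))) * eN N a := by
  have h0 : (0 : EReal) < N := EReal.coe_pos.2 hN
  have h1 : ENNReal.ofReal (Real.exp (-(N * x))) ≠ 0 := (ENNReal.ofReal_pos.2 (Real.exp_pos _)).ne'
  induction a with
  | bot => simp [eN, EReal.mul_bot_of_pos h0, ENNReal.mul_top h1]
  | top => simp [eN, EReal.mul_top_of_pos h0]
  | coe y =>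
    rw [← EReal.coe_add, eN_coe, eN_coe, ← ENNReal.ofReal_mul (Real.exp_pos _).le, ← Real.exp_add]
    congr 2; ring

theorem eN_add_le {N : ℝ} (hN : 0 < N) (a : EReal) {x b : ℝ} (h : |x| ≤ b) :
    eN N (a + x) ≤ ENNReal.ofReal (Real.exp (N * b)) * eN N a := by
  rw [eN_add hN]
  gcongr
  nlinarith [(abs_le.1 h).1]

theorem add_neg_add (a : EReal) (x : ℝ) : a + ((-x : ℝ) : EReal) + x = a := by
  rw [add_assoc, ← EReal.coe_add, neg_add_cancel, EReal.coe_zero, add_zero]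

theorem add_add_neg (a : EReal) (x : ℝ) : a + x + ((-x : ℝ) : EReal) = a := by
  rw [add_assoc, ← EReal.coe_add, add_neg_cancel, EReal.coe_zero, add_zero]

theorem meas_eN (N : ℝ) : Measurable (eN N) :=
  EReal.measurable_exp.comp (measurable_id.const_mul (N : EReal)).neg

variable [Countable A.ι]

theorem pshM (hT : IsOpen T) (F : Frm L T u) (h : HM L) {φ : M → EReal} (hφ : PshW h φ) :
    PshM A T fun y => φ y + ((-Real.log (nq h u y) : ℝ) : EReal) := by
  intro i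
  have h1 := (isPsh_log_norm (isOpen_ti hT)
    ((F.hol i).inv fun x hi hx => F.ne i x hx hi)).smul (c := 2) zero_le_two
  refine (((hφ i).mono inter_subset_left).add h1).congr fun z hz => ?_
  have hi := (A.e i).map_target hz.1
  have h2 := norm_pos_iff.2 (F.ne i _ hz.2 hi)
  have h3 := h.pos i _ hi
  simp only [F.nq_eq h hz.2 hi, HM.wt]
  rw [← ofReal_norm, ENNReal.log_ofReal_of_pos (by rw [norm_inv]; positivity), ← EReal.coe_mul,
    add_assoc, ← EReal.coe_add, Real.log_mul h3.ne' (by positivity), Real.log_pow, norm_inv,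
    Real.log_inv]
  congr 2
  push_cast
  ring

theorem exists_bd (H : Tub A T π) (F : Frm L T u) (h : HM L) :
    ∃ b : ℝ, ∀ y ∈ T, ‖π y‖ ≤ 1 / 2 → |Real.log (nq h u y)| ≤ b := by
  obtain ⟨b, hb⟩ := (H.prop (1 / 2) (by norm_num)).exists_bound_of_continuousOn
    (f := fun y => Real.log (nq h u y)) fun y hy =>
      ((F.nq_cont H.opn h hy.1).log (F.nq_pos h hy.1).ne').continuousWithinAt
  exact ⟨b, fun y h1 h2 => hb y ⟨h1, h2⟩⟩

end F5

open F5

variable [Countable A.ι] [T2Space M] [MeasurableSpace M] [BorelSpace M]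

theorem psh_bas (H : Tub A T π) (hc : ∀ y ∈ T, IsPreconnected {z | z ∈ T ∧ π z = π y})
    (F : Frm L T u) (h : HM L) {φ : M → EReal} (hφ : PshW h φ) :
    ∃ φB : Cn p → EReal, IsPsh (π '' T) φB ∧
      ∀ y ∈ T, φ y = φB (π y) + (Real.log (nq h u y) : ℝ) := by
  obtain ⟨φB, h1, h2⟩ := H.basic hc (pshM H.opn F h hφ)
  exact ⟨φB, h1, fun y hy => by rw [← h2 y hy, add_neg_add]⟩

theorem int_tube (H : Tub A T π) (hc : ∀ y ∈ T, IsPreconnected {z | z ∈ T ∧ π z = π y})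
    (F : Frm L T u) (h : HM L) {φ : M → EReal} (hφ : PshW h φ) (vol : HM (KB A)⁻¹)
    {x₀ : M} (hx : x₀ ∈ T) (h0 : π x₀ = 0) {q : A.ι} (hq : x₀ ∈ (A.e q).source) {c : ℝ} (hc0 : 0 < c)
    (hint : ∃ V ∈ 𝓝 (A.e q x₀), ∫⁻ z in V, eN c (φ ((A.e q).symm z)) < ⊤) :
    ∃ r₀, 0 < r₀ ∧ r₀ < 1 ∧ (∀ᵐ x ∂(vm vol), x ∈ T → ‖π x‖ ≤ r₀ → φ x ≠ ⊥) ∧
      IntegrableOn (fun x => Real.exp (-(c * (φ x).toReal))) {x | x ∈ T ∧ ‖π x‖ ≤ r₀} (vm vol) := by
  obtain ⟨φB, -, h2⟩ := psh_bas H hc F h hφ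
  obtain ⟨b, hb⟩ := exists_bd H F h
  obtain ⟨V, hV, hI⟩ := hint
  obtain ⟨N, hN, C, hC, h3⟩ := leG_chart vol volume hq V hV
  have h4 : ∀ᶠ y in 𝓝 x₀, ‖π y‖ ≤ 1 / 2 :=
    ((H.contAt hx).norm.eventually (gt_mem_nhds (by simp [h0]))).mono
      fun _ hy => le_of_lt hy
  obtain ⟨O, o1, o2, o3⟩ := mem_nhds_iff.1 (inter_mem hN (inter_mem (H.opn.mem_nhds hx)
    (inter_mem ((A.e q).open_source.mem_nhds hq) h4)))
  obtain ⟨W, hW, C', hC', h5⟩ := H.geG vol volume hx O (o2.mem_nhds o3)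
  have h6 : ∫⁻ w in W, eN c (φB w) < ⊤ := by
    refine (h5 _).trans_lt (ENNReal.mul_lt_top hC' ((lint_mono_on o2.measurableSet subset_rfl
      (F' := fun y => ENNReal.ofReal (Real.exp (c * b)) * eN c (φ ((A.e q).symm (A.e q y))))
      fun y hy => ?_).trans_lt ?_))
    · obtain ⟨-, a1, a2, a3⟩ := o1 hy
      rw [(A.e q).left_inv a2, h2 y a1]
      conv_lhs => rw [← add_add_neg (φB (π y)) (Real.log (nq h u y))]
      exact eN_add_le hc0 _ (by rw [abs_neg]; exact hb y a1 a3)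
    · rw [lintegral_const_mul' _ _ ENNReal.ofReal_ne_top]
      exact ENNReal.mul_lt_top ENNReal.ofReal_lt_top (((lintegral_mono_set fun y hy =>
        (o1 hy).1).trans (h3 fun z => eN c (φ ((A.e q).symm z)))).trans_lt
          (ENNReal.mul_lt_top hC hI))
  rw [h0] at hW
  obtain ⟨ε, hε, h7⟩ := Metric.mem_nhds_iff.1 hW
  have r1 : min (ε / 2) (1 / 2) < 1 := (min_le_right _ _).trans_lt (by norm_num)
  have hK := H.prop _ r1
  set K := {y | y ∈ T ∧ ‖π y‖ ≤ min (ε / 2) (1 / 2)}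
  obtain ⟨C'', hC'', h8⟩ := lint_cpt (μ := vm vol) (ν := (volume : Measure (Cn p))) hK
    (fun a ha => H.leG vol volume ha.1) (W := W) fun a ha => mem_of_superset
      (isOpen_ball.mem_nhds (mem_ball_zero_iff.2
        ((ha.2.trans (min_le_left _ _)).trans_lt (half_lt_self hε)))) h7
  have h9 : ∫⁻ y in K, eN c (φ y) ∂(vm vol) < ⊤ := by
    refine (lint_mono_on hK.measurableSet subset_rfl
      (F' := fun y => ENNReal.ofReal (Real.exp (c * b)) * eN c (φB (π y))) fun y hy => ?_).trans_lt ?_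
    · rw [h2 y hy.1]
      exact eN_add_le hc0 _ (hb y hy.1 (hy.2.trans (min_le_right _ _)))
    · rw [lintegral_const_mul' _ _ ENNReal.ofReal_ne_top]
      exact ENNReal.mul_lt_top ENNReal.ofReal_lt_top
        ((h8 fun w => eN c (φB w)).trans_lt (ENNReal.mul_lt_top hC'' h6))
  have hP := pshM H.opn F h hφ
  have m1 : AEMeasurable φ ((vm vol).restrict K) := by
    obtain ⟨v, v1, v2⟩ := exists_meas H.opn fun y hy =>
      (hP.usc H.opn hy).upperSemicontinuousWithinAt T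
    have c1 : ContinuousOn (fun y => Real.log (nq h u y)) K := fun y hy =>
      ((F.nq_cont H.opn h hy.1).log (F.nq_pos h hy.1).ne').continuousWithinAt
    refine (v1.aemeasurable.add (c1.aemeasurable hK.measurableSet).coe_real_ereal).congr ?_
    filter_upwards [ae_restrict_mem hK.measurableSet] with y hy
    rw [Pi.add_apply, ← v2 hy.1, add_neg_add]
  have t1 : ∀ y, φ y ≠ ⊤ := fun y e => by
    obtain ⟨i, hi⟩ := A.cover y
    have := (hφ i).lt_top _ ((A.e i).map_source hi)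
    simp [(A.e i).left_inv hi, e] at this
  have a1 := (ae_restrict_iff' hK.measurableSet).1
    (ae_lt_top' ((meas_eN c).comp_aemeasurable m1) h9.ne)
  refine ⟨_, lt_min (half_pos hε) one_half_pos, r1, a1.mono fun y hy b1 b2 e => ?_,
    (Real.continuous_exp.measurable.comp_aemeasurable
      (m1.ereal_toReal.const_mul c).neg).aestronglyMeasurable,
    lt_of_le_of_lt (lintegral_mono fun y => ?_) h9⟩
  · have := hy ⟨b1, b2⟩
    simp [e, eN_bot hc0] at this
  · by_cases e : φ y = ⊥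
    · simp [e, eN_bot hc0]
    · conv_rhs => rw [← EReal.coe_toReal (t1 y) e, eN_coe]
      rw [Real.enorm_eq_ofReal (Real.exp_pos _).le]

theorem pole_tube (H : Tub A T π) (hc : ∀ y ∈ T, IsPreconnected {z | z ∈ T ∧ π z = π y})
    (F : Frm L T u) (h : HM L) {S : M → EReal} (hS : PshW h S)
    {x₀ : M} (hx : x₀ ∈ T) (h0 : π x₀ = 0) {q : A.ι} (hq : x₀ ∈ (A.e q).source) {c C : ℝ}
    (hc0 : 0 < c) (hp : ∀ᶠ z in 𝓝[≠] (A.e q x₀),
      S ((A.e q).symm z) ≤ ((c * Real.log ‖z - A.e q x₀‖ + C : ℝ) : EReal)) :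
    ∃ r₀ C', 0 < r₀ ∧ r₀ < 1 ∧ ∀ x ∈ T, π x ≠ 0 → ‖π x‖ ≤ r₀ →
      S x ≤ ((c * Real.log ‖π x‖ + C' : ℝ) : EReal) := by
  obtain ⟨SB, -, h2⟩ := psh_bas H hc F h hS
  obtain ⟨b, hb⟩ := exists_bd H F h
  obtain ⟨P⟩ := H.exists_pc hx hq
  have h3 := P.sec_an (mem_ball_self P.pos)
  obtain ⟨Λ, hΛ, h4⟩ := h3.differentiableAt.hasFDerivAt.isBigO_sub.exists_pos
  have h5 := h3.continuousAt
  rw [ContinuousAt, P.G_self] at h5
  have h6 := (h4.bound.and (h5.eventually (eventually_nhdsWithin_iff.1 hp))).and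
    (ball_mem_nhds (π x₀) P.pos)
  obtain ⟨ε, hε, h7⟩ := nhds_basis_closedBall.eventually_iff.1 h6
  refine ⟨min ε (1 / 2), c * Real.log Λ + C + b + b, lt_min hε one_half_pos,
    (min_le_right _ _).trans_lt (by norm_num), fun x a1 a2 a3 => ?_⟩
  obtain ⟨⟨b1, b2⟩, b3⟩ := h7 (show π x ∈ closedBall (π x₀) ε by
    rw [h0]; exact mem_closedBall_zero_iff.2 (a3.trans (min_le_left _ _)))
  have b4 := P.mem_ball' b3 (mem_ball_self P.pos)
  have b5 : P.G (π x, P.κ x₀) ≠ A.e q x₀ := fun e => a2 (by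
    have := P.fst _ b4
    rwa [e, (A.e q).left_inv hq, h0, eq_comm] at this)
  have b6 : π (P.Γ (π x, P.κ x₀)) = π x := P.π_Γ b4
  have b7 := a3.trans (min_le_right _ _)
  have b8 := h2 _ (P.Γ_mem b4)
  have b9 := abs_le.1 (hb _ (P.Γ_mem b4) (by rwa [b6]))
  have c1 : S (P.Γ (π x, P.κ x₀)) ≤ _ := b2 b5
  rw [b8, b6, add_coe_le_iff] at c1
  rw [P.G_self, h0, sub_zero] at b1
  have c2 := Real.log_le_log (norm_pos_iff.2 (sub_ne_zero.2 b5)) b1
  rw [Real.log_mul hΛ.ne' (norm_ne_zero_iff.2 a2)] at c2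
  rw [h2 x a1]
  refine (add_le_coe c1 le_rfl).trans (EReal.coe_le_coe_iff.2 ?_)
  nlinarith [(abs_le.1 (hb x a1 b7)).2, mul_le_mul_of_nonneg_left c2 hc0.le]

end

end Crest.Agent.X261.Jet.Tb
end

-- ▼ part X261/Jet/TbD
section

/-!
# Row 261, JET/Tube (helper66), file `TbD`: test fields along a submersion

* `tau A i π x`    : the polyvector dual to `dπ_1 ∧ … ∧ dπ_p`;
* `fld T π σ b`    : the field `b σ tau`; `fldM` : as an element of `MV N`;
* `dlt_fldM`       : `b σ tau / |σ|²` is co-closed if `b` is locally a function of `π`;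
* `gl_fld`, `gl_pair` : norms and pairings; `mm` : the function `|σ tau|²`.
-/

set_option autoImplicit false
set_option linter.unusedSectionVars false

open Set Filter Topology Complex Matrix MeasureTheory Metric
open scoped ContDiff Matrix ComplexConjugate ENNReal InnerProductSpace

namespace Crest.Agent.X261.Jet.Tb

open Crest.Agent.R275 Crest.Agent.R275.Geo Crest.Agent.R275.Core144
open Crest.Agent.R275.OmT75 (dl)
open Crest.Agent.R273.Defs_333 Crest.Agent.R273.Fock_243 Crest.Agent.R273.Vm_333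
open Crest.Agent.R273.Kah_333
open Crest.Agent.R273.Berezin_505 (Sb Sbi)
open Crest.Agent.R273.DVec_733 (MV Jm_mul_symm)
open Crest.Agent.R273.DMetB_733 (dlt dlt_eq_delV isV mem_MV)
open Crest.Agent.R273.BKNa_37 (IsV dbV delV)
open Crest.Agent.R273.BKNb_37 (inG)
open Crest.Agent.T223.Hm
open Crest.Agent.X261.Top (dW)
open Crest.Agent.X261.Jet.Fr

noncomputable section

variable {n p : ℕ} {M : Type} [TopologicalSpace M] {A : Atl n M} {T : Set M} {π : M → Cn p}
  {i j : A.ι} {x : M} {N : LB A} {σ : A.ι → M → ℂ} {b : M → ℂ}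

/-- the polyvector dual to `dπ_1 ∧ … ∧ dπ_p` -/
def tau (A : Atl n M) (i : A.ι) (π : M → Cn p) (x : M) : FI n → ℂ := Sbi ℂ n *ᵥ dW A i π x

theorem dg_tau {r : ℕ} (hr : p + r = n) : Dg r (tau A i π x) := dg_dW.Sbi hr

theorem holAt_mulVec {U : Set M} (B : Matrix (FI n) (FI n) ℂ) {v : M → FI n → ℂ}
    (hv : ∀ S, HolAt A i U fun y => v y S) (S : FI n) : HolAt A i U fun y => (B *ᵥ v y) S :=
  HolAt.sum (F := fun S' y => B S S' * v y S') Finset.univ fun S' _ => (hv S').const_mul (B S S')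

theorem dd_mulVec {s : ℂ} {a : Fin n} (B : Matrix (FI n) (FI n) ℂ) {v : M → FI n → ℂ}
    (hv : ∀ S, SA A i x fun y => v y S) (hi : x ∈ (A.e i).source) :
    (fun S => dd A s i a (fun y => (B *ᵥ v y) S) x) = B *ᵥ fun S => dd A s i a (fun y => v y S) x := by
  funext S
  simp only [Matrix.mulVec, dotProduct]
  rw [dd_sum _ fun S' _ => (sa_const _).mul (hv S')]
  refine Finset.sum_congr rfl fun S' _ => ?_
  rw [dd_mul (sa_const _) (hv S') hi, dd_const, zero_mul, zero_add]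

namespace Sbm

variable (H : Sbm A T π)
include H

theorem tau_ne (hx : x ∈ T) (hi : x ∈ (A.e i).source) : tau A i π x ≠ 0 := fun h =>
  H.dW_ne hx hi (Sbi_eq_zero h)

theorem tau_hol (i : A.ι) (S : FI n) : HolAt A i T fun y => tau A i π y S :=
  holAt_mulVec _ (H.dW_hol i) S

theorem tau_tr (hx : x ∈ T) (hij : x ∈ (A.e i).source ∩ (A.e j).source) :
    tau A i π x = (KB A).g i j x • (Gam (Jm A j i x) *ᵥ tau A j π x) := by
  rw [tau, H.dW_tr hx hij, Gam_Sbi (Jm_mul_symm ⟨hij.2, hij.1⟩), KB_g hij, tau]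

theorem frm_tr (F : Frm ((KB A)⁻¹ * N) T σ) (hx : x ∈ T)
    (hij : x ∈ (A.e i).source ∩ (A.e j).source) (c : ℂ) :
    (c * σ i x) • tau A i π x =
      N.g i j x • (Gam (Jm A j i x) *ᵥ ((c * σ j x) • tau A j π x)) := by
  rw [H.tau_tr hx hij, F.tr i j x hx hij, Matrix.mulVec_smul, smul_smul, smul_smul, LB.mul_g,
    LB.inv_g]
  congr 1
  have := (KB A).ne_zero i j x
  field_simp

/-- the divergence of `g · tau` -/
theorem div_tau (hx : x ∈ T) (hi : x ∈ (A.e i).source) {g : M → ℂ} (hg : SA A i x g) :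
    ∑ l, iW (ep l) *ᵥ (fun S => dl A i l (fun y => g y * tau A i π y S) x) =
      - (Sbi ℂ n *ᵥ (eW (fun a => dl A i a g x) *ᵥ dW A i π x)) := by
  have h1 : ∀ l, (fun S => dl A i l (fun y => g y * tau A i π y S) x) =
      Sbi ℂ n *ᵥ (dl A i l g x • dW A i π x +
        g x • fun S => dl A i l (fun y => dW A i π y S) x) := fun l => by
    simp only [dl_eq]
    rw [Matrix.mulVec_add, Matrix.mulVec_smul, Matrix.mulVec_smul,
      ← dd_mulVec _ (fun S => sa_hol (H.dW_hol i S) H.opn hi hx) hi]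
    funext S
    exact dd_mul hg (sa_hol (H.tau_hol i S) H.opn hi hx) hi
  simp only [h1, iW_Sbi, Finset.sum_neg_distrib, ← Matrix.mulVec_sum, Matrix.mulVec_add,
    Matrix.mulVec_smul, Finset.sum_add_distrib, ← Finset.smul_sum]
  rw [H.dW_closed hx hi, Matrix.mulVec_zero, neg_zero, smul_zero, add_zero,
    eW_eq_sum (fun a => dl A i a g x), Matrix.sum_mulVec, Matrix.mulVec_sum,
    ← Finset.sum_neg_distrib]
  simp only [Matrix.smul_mulVec, Matrix.mulVec_smul, smul_neg]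

end Sbm

/-- smooth on `T` -/
def SmT (A : Atl n M) (T : Set M) (b : M → ℂ) : Prop :=
  ∀ i, ∀ x ∈ T, x ∈ (A.e i).source → SA A i x b

theorem SmT.mul {b' : M → ℂ} (h : SmT A T b) (h' : SmT A T b') : SmT A T fun x => b x * b' x :=
  fun i x hx hi => (h i x hx hi).mul (h' i x hx hi)

theorem smT_hol (hT : IsOpen T) (h : ∀ i, HolAt A i T b) : SmT A T b := fun i _ hx hi =>
  sa_hol (h i) hT hi hx

theorem Sbm.smT_comp (H : Sbm A T π) {Φ : Cn p → ℂ} (hΦ : ∀ x ∈ T, ContDiffAt ℝ ∞ Φ (π x)) :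
    SmT A T fun x => Φ (π x) := fun i x hx hi =>
  ContDiffAt.comp (g := Φ) (f := fun z => π ((A.e i).symm z)) (A.e i x)
    (by rw [(A.e i).left_inv hi]; exact hΦ x hx)
    (((H.anAt hx hi).contDiffAt (n := ∞)).restrict_scalars ℝ)

theorem SmT.cont (h : SmT A T b) (hx : x ∈ T) : ContinuousAt b x := by
  obtain ⟨i, hi⟩ := A.cover x
  exact cont_of_chart hi (h i x hx hi).continuousAt

open Classical in
/-- the field `b σ tau` -/
def fld (T : Set M) (π : M → Cn p) (σ : A.ι → M → ℂ) (b : M → ℂ) (i : A.ι) (x : M) : FI n → ℂ :=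
  if x ∈ T ∧ x ∈ (A.e i).source then (b x * σ i x) • tau A i π x else 0

theorem fld_eq (hx : x ∈ T) (hi : x ∈ (A.e i).source) :
    fld T π σ b i x = (b x * σ i x) • tau A i π x := if_pos ⟨hx, hi⟩

theorem fld_off (hx : x ∈ T → b x = 0) : fld T π σ b i x = 0 := by
  unfold fld
  split_ifs with h
  · rw [hx h.1, zero_mul, zero_smul]
  · rfl

theorem fld_smul : fld T π σ b i x = b x • fld T π σ (fun _ => 1) i x := by
  unfold fld
  split_ifs
  · rw [smul_smul, one_mul]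
  · rw [smul_zero]

theorem dg_fld {r : ℕ} (hr : p + r = n) : Dg r (fld T π σ b i x) := by
  unfold fld
  split_ifs
  · exact (dg_tau hr).smul _
  · exact fun _ _ => rfl

theorem fld_tr (H : Sbm A T π) (F : Frm ((KB A)⁻¹ * N) T σ)
    (hij : x ∈ (A.e i).source ∩ (A.e j).source) :
    fld T π σ b i x = N.g i j x • (Gam (Jm A j i x) *ᵥ fld T π σ b j x) := by
  by_cases hx : x ∈ T
  · rw [fld_eq hx hij.1, fld_eq hx hij.2]
    exact H.frm_tr F hx hij _
  · rw [fld_off fun h => (hx h).elim, fld_off fun h => (hx h).elim, Matrix.mulVec_zero, smul_zero]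

theorem fld_ev (hT : IsOpen T) (hx : x ∈ T) (hi : x ∈ (A.e i).source) (S : FI n) :
    (fun y => fld T π σ b i y S) =ᶠ[𝓝 x] fun y => b y * (σ i y * tau A i π y S) := by
  filter_upwards [hT.mem_nhds hx, ev_src hi] with y h1 h2
  rw [fld_eq h1 h2, Pi.smul_apply, smul_eq_mul, mul_assoc]

/-- `∂̄` of the field vanishes where `b` is holomorphic -/
theorem dbV_fld (H : Sbm A T π) {L : LB A} (F : Frm L T σ) {W : Set M} (hW : IsOpen W)
    (hWT : W ⊆ T) (hb : HolAt A i W b) (hx : x ∈ W) (hi : x ∈ (A.e i).source) (k : Fin n) :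
    dbV (fld T π σ b) i k x = 0 := by
  funext S
  refine (dd_congr hi (fld_ev H.opn (hWT hx) hi S)).trans ?_
  exact (hb.mul (((F.hol i).mul (H.tau_hol i S)).mono hWT)).db_zero hW hi hx k

/-- smooth on `T` and vanishing off a compact subset of `T` -/
structure Tst (A : Atl n M) (T : Set M) (b : M → ℂ) (C : Set M) : Prop where
  sm : SmT A T b
  cpt : IsCompact C
  sub : C ⊆ T
  off : ∀ x ∉ C, x ∈ T → b x = 0

theorem Tst.mul {C : Set M} (h : Tst A T b C) {b' : M → ℂ} (h' : SmT A T b') :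
    Tst A T (fun x => b x * b' x) C :=
  ⟨h.sm.mul h', h.cpt, h.sub, fun x hx hxT => by rw [h.off x hx hxT, zero_mul]⟩

variable [T2Space M] {C : Set M}

theorem Tst.ev_off (h : Tst A T b C) (hx : x ∉ C) : ∀ᶠ y in 𝓝 x, ∀ i, fld T π σ b i y = 0 := by
  filter_upwards [h.cpt.isClosed.isOpen_compl.mem_nhds hx] with y hy i
  exact fld_off (h.off y hy)

theorem fld_isV (H : Sbm A T π) (F : Frm ((KB A)⁻¹ * N) T σ) (h : Tst A T b C) :
    IsV N (fld T π σ b) where
  sm i S := smAt_of_sa fun x hi => by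
    by_cases hx : x ∈ T
    · exact ((h.sm i x hx hi).mul (sa_hol ((F.hol i).mul (H.tau_hol i S)) H.opn hi hx)).congr hi
        (fld_ev H.opn hx hi S)
    · refine (sa_const 0).congr hi ?_
      filter_upwards [h.ev_off (π := π) (σ := σ) fun hC => hx (h.sub hC)] with y hy
      rw [hy i]
      rfl
  tr _ _ _ hij := fld_tr H F hij

/-- the field `b σ tau` as a smooth section -/
def fldM (H : Sbm A T π) (F : Frm ((KB A)⁻¹ * N) T σ) (h : Tst A T b C) : MV N :=
  ⟨fld T π σ b, mem_MV (fld_isV H F h) fun _ _ hx => if_neg fun h => hx h.2⟩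

theorem fldM_val (H : Sbm A T π) (F : Frm ((KB A)⁻¹ * N) T σ) (h : Tst A T b C) :
    (fldM H F h).1 = fld T π σ b := rfl

theorem Tst.cs (h : Tst A T b C) : Cs (fld T π σ b) :=
  ⟨C, h.cpt, fun _ x hx => fld_off (h.off x hx)⟩

variable [Countable A.ι]

theorem Frm.smT_inv {L : LB A} (F : Frm L T σ) (hT : IsOpen T) (h : HM L) :
    SmT A T fun x => ((nq h σ x : ℂ))⁻¹ := fun _ _ hx hi =>
  (F.nq_sa hT h hx hi).inv hi (Complex.ofReal_ne_zero.2 (F.nq_pos h hx).ne')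

/-- **co-closed test fields** -/
theorem dlt_fldM (H : Sbm A T π) (F : Frm ((KB A)⁻¹ * N) T σ) (h : HM ((KB A)⁻¹ * N))
    (hb : Tst A T b C) (h0 : ∀ i, ∀ x ∈ T, x ∈ (A.e i).source →
      eW (fun a => dl A i a b x) *ᵥ dW A i π x = 0) :
    dlt h (fldM H F (hb.mul (F.smT_inv H.opn h))) = 0 := by
  refine MV.ext fun i x hi => ?_
  rw [dlt_eq_delV h _ hi, fldM_val, delV]
  refine (congrArg _ ?_).trans (smul_zero _)
  by_cases hx : x ∈ T
  · have hs := ((F.hol i).inv fun y hy hyT => F.ne i y hyT hy)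
    have hs' := sa_hol hs H.opn hi hx
    have h1 : ∀ l, (fun S => dl A i l (fun y => (h.w i y : ℂ) *
        fld T π σ (fun x => b x * ((nq h σ x : ℂ))⁻¹) i y S) x) =
        fun S => dl A i l (fun y => (b y * conj (σ i y)⁻¹) * tau A i π y S) x := fun l => by
      funext S
      refine dl_congr' hi ?_ l
      filter_upwards [H.opn.mem_nhds hx, ev_src hi] with y h2 h3
      rw [fld_eq h2 h3, F.nq_eqC h h2 h3, Pi.smul_apply, smul_eq_mul, map_inv₀]
      have := w_ne h h3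
      have := F.ne i y h2 h3
      have : conj (σ i y) ≠ 0 := (map_ne_zero _).2 this
      field_simp
    simp only [h1]
    rw [H.div_tau hx hi ((hb.sm i x hx hi).mul hs'.conj)]
    have h2 : (fun a => dl A i a (fun y => b y * conj (σ i y)⁻¹) x) =
        conj (σ i x)⁻¹ • fun a => dl A i a b x := by
      funext a
      rw [dl_eq, dd_mul (hb.sm i x hx hi) hs'.conj hi, dl_conj', ← db_eq,
        hs.db_zero H.opn hi hx, map_zero, mul_zero, add_zero, ← dl_eq, mul_comm]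
      rfl
    rw [h2, eW_smul, Matrix.smul_mulVec, h0 i x hx hi, smul_zero, Matrix.mulVec_zero, neg_zero]
  · refine Finset.sum_eq_zero fun l _ => (congrArg _ ?_).trans (Matrix.mulVec_zero _)
    funext S
    rw [dl_congr' (g := fun _ => 0) hi, dl_eq, dd_const]
    · rfl
    · filter_upwards [(hb.mul (F.smT_inv H.opn h)).ev_off (π := π) (σ := σ)
        fun hC => hx (hb.sub hC)] with y hy
      rw [hy i, Pi.zero_apply, mul_zero]

/-! ### norms and pairings -/

variable (h : HM ((KB A)⁻¹ * N)) (vol : HM (KB A)⁻¹) (K : Kah A)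

/-- the function `|σ tau|²` -/
def mm (T : Set M) (π : M → Cn p) (σ : A.ι → M → ℂ) (x : M) : ℝ :=
  ‖rr h vol K (fld T π σ fun _ => 1) x‖ ^ 2

theorem mm_nonneg : 0 ≤ mm h vol K T π σ x := sq_nonneg _

theorem rr_fld : rr h vol K (fld T π σ b) x = b x • rr h vol K (fld T π σ fun _ => 1) x := by
  rw [rr, rr, fld_smul, tV_smul]

theorem gl_fld : (gl vol (inG K h (fld T π σ b) (fld T π σ b)) x).re =
    ‖b x‖ ^ 2 * mm h vol K T π σ x := by
  rw [← norm_rr, rr_fld, norm_smul, mul_pow, mm]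

theorem mm_eq (H : Sbm A T π) (F : Frm ((KB A)⁻¹ * N) T σ) (hx : x ∈ T)
    (hi : x ∈ (A.e i).source) : mm h vol K T π σ x = (vol.w i x)⁻¹ * (h.w i x *
      (gq K i x (σ i x • tau A i π x) (σ i x • tau A i π x)).re) := by
  rw [mm, rr, tV_law h vol K ⟨hi, ix_mem x⟩, ← fld_tr H F ⟨hi, ix_mem x⟩, norm_tV h vol K hi,
    fld_eq hx hi, one_mul]

theorem mm_pos (H : Sbm A T π) (F : Frm ((KB A)⁻¹ * N) T σ) (hx : x ∈ T) :
    0 < mm h vol K T π σ x := by
  have hi := ix_mem (A := A) x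
  rw [mm_eq h vol K H F hx hi]
  exact mul_pos (inv_pos.2 (vol.pos _ x hi)) (mul_pos (h.pos _ x hi)
    (gq_pos K hi (smul_ne_zero (F.ne _ x hx hi) (H.tau_ne hx hi))))

theorem mm_cont (H : Sbm A T π) (F : Frm ((KB A)⁻¹ * N) T σ) (hx : x ∈ T) :
    ContinuousAt (mm h vol K T π σ) x := by
  obtain ⟨i, hi⟩ := A.cover x
  have hO := H.opn.inter (A.e i).open_source
  have h1 : ContinuousOn (fun y => σ i y • tau A i π y) (T ∩ (A.e i).source) :=
    continuousOn_pi.2 fun S y hy => ContinuousAt.continuousWithinAt (cont_of_chart hy.2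
      (sa_hol ((F.hol i).mul (H.tau_hol i S)) H.opn hy.2 hy.1).continuousAt)
  have h2 := (((contOn_smAt (vol.sm i)).inv₀ fun y hy => (vol.pos i y hy).ne').mono
    (inter_subset_right (s := T))).mul (((contOn_smAt (h.sm i)).mono inter_subset_right).mul
      (Complex.continuous_re.comp_continuousOn
        (contOn_gq K continuousOn_id inter_subset_right h1 h1)))
  exact (h2.congr fun y hy => mm_eq h vol K H F hy.1 hy.2).continuousAt (hO.mem_nhds ⟨hx, hi⟩)

/-- pairing of a test field with a field whose part of degree `r` is `f σ tau` -/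
theorem gl_pair {r : ℕ} (hr : p + r = n) {V : A.ι → M → FI n → ℂ} {c : ℂ} (hx : x ∈ T)
    (hV : prj r (V (ix A x) x) = (c * σ (ix A x) x) • tau A (ix A x) π x) :
    gl vol (inG K h (fld T π σ b) V) x = conj c * b x * (mm h vol K T π σ x : ℝ) := by
  have h1 : gl vol (inG K h (fld T π σ b) V) x =
      gl vol (inG K h (fld T π σ b) (fld T π σ fun _ => c)) x := by
    rw [gl, gl, inG, inG, ← pair_prj (dg_fld hr), hV, fld_eq (b := fun _ => c) hx (ix_mem x)]
  rw [h1, ← inner_rr, rr_fld (b := b), rr_fld (b := fun _ => c), inner_smul_left, inner_smul_right,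
    inner_self_eq_norm_sq_to_K, mm, mul_assoc]
  simp

theorem gl_pair_off {V : A.ι → M → FI n → ℂ} (hx : x ∈ T → b x = 0) :
    gl vol (inG K h (fld T π σ b) V) x = 0 := by
  rw [gl, inG, fld_off hx, Matrix.mulVec_zero, dotProduct_zero, mul_zero, smul_zero]

end

end Crest.Agent.X261.Jet.Tb
end

-- ▼ part X261/Jet/TbG
section

/-!
# Row 261, JET/Tube (helper66), file `TbG`: the end of JET

* `Tub.fib_null` : the fibres have measure zero;
* `jet_base`     : the jet lemma with regularised weights;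
* `jet_end`      : an `L²` estimate with weight `‖π‖^(2(p+1))` on co-closed test fields forces
                   vanishing to order two on the central fibre.
-/

set_option autoImplicit false
set_option linter.unusedSectionVars false

open Set Filter Topology Complex Matrix MeasureTheory Metric
open scoped ContDiff Matrix ComplexConjugate ENNReal InnerProductSpace

namespace Crest.Agent.X261.Jet.Tb

open Crest.Agent.R275 Crest.Agent.R275.Geo Crest.Agent.R275.Core144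
open Crest.Agent.R275.OmT75 (dl dj dj_holo)
open Crest.Agent.R273.Defs_333 Crest.Agent.R273.Fock_243 Crest.Agent.R273.Vm_333
open Crest.Agent.R273.Kah_333
open Crest.Agent.R273.DVec_733 (MV)
open Crest.Agent.R273.DMetB_733 (dlt isV)
open Crest.Agent.R273.BKNa_37 (IsV)
open Crest.Agent.R273.BKNb_37 (inG)
open Crest.Agent.R273.BKNc_37 (inG_isD)
open Crest.Agent.T223.Hm
open Crest.Agent.X261.Jet.HL (pr)

noncomputable section

variable {n p : ℕ} {M : Type} [TopologicalSpace M] {A : Atl n M} {T : Set M} {π : M → Cn p}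
  {N : LB A} {σ : A.ι → M → ℂ}

theorem norm_toLp_le (ζ : Fin p → ℂ) : ‖(WithLp.toLp 2 ζ : Cn p)‖ ^ 2 ≤ p * ‖ζ‖ ^ 2 := by
  rw [EuclideanSpace.norm_sq_eq]
  refine (Finset.sum_le_card_nsmul _ _ (‖ζ‖ ^ 2) fun k _ => ?_).trans (by simp)
  exact pow_le_pow_left₀ (norm_nonneg _) (norm_le_pi_norm ζ k) 2

/-- the jet lemma with regularised weights -/
theorem jet_base (hp : 1 ≤ p) {G : Cn p → ℂ} (hG : DifferentiableAt ℂ G 0)
    {W : Set (Fin p → ℂ)} (hW : W ∈ 𝓝 (0 : Fin p → ℂ)) {B : ℝ≥0∞} (hB : B < ⊤)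
    (h : ∀ η : ℝ, 0 < η → ∫⁻ ζ in W, ENNReal.ofReal (‖G (WithLp.toLp 2 ζ)‖ ^ 2 *
      ((‖(WithLp.toLp 2 ζ : Cn p)‖ ^ 2 + η) ^ (p + 1))⁻¹) ≤ B) :
    G 0 = 0 ∧ fderiv ℂ G 0 = 0 := by
  let e := (EuclideanSpace.equiv (Fin p) ℂ).symm
  have h1 : HasFDerivAt (fun ζ : Fin p → ℂ => G (WithLp.toLp 2 ζ))
      ((fderiv ℂ G 0).comp (e : (Fin p → ℂ) →L[ℂ] Cn p)) 0 :=
    HasFDerivAt.comp (g := G) (f := e) 0 hG.hasFDerivAt e.hasFDerivAt
  have : Nonempty (Fin p) := ⟨⟨0, hp⟩⟩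
  obtain ⟨k1, k2⟩ := Crest.Agent.R269.Amp4_243.jet_of_lint hp h1.differentiableAt
    ((p + 1 : ℕ) : ℝ) (by push_cast; exact le_rfl) hW (by
      let S : ℕ → Set (Fin p → ℂ) := fun k => {ζ | 1 / ((k : ℝ) + 1) ≤ ‖ζ‖}
      have hs : W ⊆ (⋃ k, W ∩ S k) ∪ {0} := fun ζ hζ => by
        by_cases h0 : ζ = 0
        · exact Or.inr h0
        · obtain ⟨k, hk⟩ := exists_nat_one_div_lt (norm_pos_iff.2 h0)
          exact Or.inl (mem_iUnion.2 ⟨k, hζ, hk.le⟩)
      have hm : Monotone fun k => W ∩ S k := fun k l hkl ζ hζ =>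
        ⟨hζ.1, (le_trans (Nat.one_div_le_one_div hkl) hζ.2 : 1 / ((l : ℝ) + 1) ≤ ‖ζ‖)⟩
      refine ne_top_of_le_ne_top ?_ ((lintegral_mono_set hs).trans (lintegral_union_le _ _ _))
      rw [setLIntegral_measure_zero _ _ (measure_singleton _), add_zero,
        setLIntegral_iUnion_of_directed _ hm.directed_le]
      refine ne_top_of_le_ne_top (ENNReal.mul_ne_top
        (ENNReal.ofReal_ne_top (r := ((p : ℝ) + 1) ^ (p + 1))) hB.ne) (iSup_le fun k => ?_)
      have hδ : 0 < 1 / ((k : ℝ) + 1) := Nat.one_div_pos_of_nat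
      refine le_trans ?_ (mul_le_mul_right (h _ (pow_pos hδ 2)) _)
      rw [← lintegral_const_mul' _ _ ENNReal.ofReal_ne_top]
      refine le_trans (lint_mono_on (O := S k)
        (isClosed_le continuous_const continuous_norm).measurableSet inter_subset_right
        fun ζ hζ => ?_) (lintegral_mono_set inter_subset_left)
      have h2 : 0 < ‖ζ‖ := hδ.trans_le hζ
      rw [ENNReal.ofReal_rpow_of_pos (pow_pos h2 2), ← ENNReal.ofReal_mul (sq_nonneg _),
        ← ENNReal.ofReal_mul (by positivity), Real.rpow_neg (sq_nonneg _), Real.rpow_natCast,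
        mul_left_comm]
      refine ENNReal.ofReal_le_ofReal (mul_le_mul_of_nonneg_left ?_ (sq_nonneg _))
      rw [← div_eq_mul_inv, inv_eq_one_div, div_le_div_iff₀ (by positivity) (by positivity),
        one_mul, ← mul_pow]
      refine pow_le_pow_left₀ (by positivity) ?_ _
      have h3 := norm_toLp_le ζ
      have h4 := pow_le_pow_left₀ hδ.le hζ 2
      linarith)
  refine ⟨k1, ?_⟩
  rw [h1.fderiv] at k2
  ext v
  obtain ⟨ζ, rfl⟩ := e.surjective v
  exact DFunLike.congr_fun k2 ζ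

/-- the regularised weight -/
def wgt (θ : ContDiffBump (0 : Cn p)) (η : ℝ) (t : Cn p) : ℝ := θ t * ((‖t‖ ^ 2 + η) ^ (p + 1))⁻¹

theorem wgt_cd (θ : ContDiffBump (0 : Cn p)) {η : ℝ} (hη : 0 < η) :
    ContDiff ℝ ∞ fun t => (wgt θ η t : ℂ) :=
  Complex.ofRealCLM.contDiff.comp (θ.contDiff.mul
    ((((contDiff_norm_sq ℝ).add contDiff_const).pow _).inv fun t => by positivity))

theorem wgt_nonneg (θ : ContDiffBump (0 : Cn p)) {η : ℝ} (hη : 0 < η) (t : Cn p) :
    0 ≤ wgt θ η t := mul_nonneg θ.nonneg (by positivity)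

theorem wgt_le (θ : ContDiffBump (0 : Cn p)) {η : ℝ} (hη : 0 < η) (t : Cn p) :
    ‖t‖ ^ (2 * (p + 1)) * wgt θ η t ≤ 1 := by
  rw [wgt, mul_left_comm, ← div_eq_mul_inv, pow_mul]
  exact mul_le_one₀ θ.le_one (by positivity) (div_le_one_of_le₀
    (pow_le_pow_left₀ (sq_nonneg _) (le_add_of_nonneg_right hη.le) _) (by positivity))

variable [Countable A.ι] [T2Space M] [MeasurableSpace M] [BorelSpace M]

/-- the fibres have measure zero -/
theorem Tub.fib_null (H : Tub A T π) (hp : 1 ≤ p) (vol : HM (KB A)⁻¹) {c : Cn p} (hc : ‖c‖ < 1) :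
    vm vol {x | x ∈ T ∧ π x = c} = 0 := by
  borelize (Cn p)
  have : Nonempty (Fin p) := ⟨⟨0, hp⟩⟩
  have hZ := H.cpt (isClosed_singleton (x := c)) hc fun _ hz => le_of_eq (congrArg _ hz)
  obtain ⟨C, -, h⟩ := lint_cpt hZ (fun a ha => H.leG vol Measure.addHaar ha.1)
    (W := univ) fun _ _ => univ_mem
  have h1 := h (({c} : Set (Cn p)).indicator 1)
  rw [Measure.restrict_univ, lintegral_indicator_one (measurableSet_singleton c),
    measure_singleton, mul_zero, setLIntegral_congr_fun (g := fun _ => 1) hZ.measurableSet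
      fun a ha => indicator_of_mem ha.2 _, setLIntegral_one] at h1
  exact nonpos_iff_eq_zero.1 h1

theorem Sbm.geG_of (H : Sbm A T π) (vol : HM (KB A)⁻¹) {x : M} (hx : x ∈ T) :
    GeG (vm vol) x (fun y => WithLp.ofLp (π y)) volume (WithLp.ofLp (π x)) := by
  borelize (Cn p)
  let e := EuclideanSpace.equiv (Fin p) ℂ
  have h1 : fderiv ℂ (fun t : Cn p => WithLp.ofLp t) (π x) = e := e.fderiv
  exact (geG_subm Measure.addHaar volume (g := fun t : Cn p => WithLp.ofLp t)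
    ((e : Cn p →L[ℂ] (Fin p → ℂ)).analyticAt _) (by rw [h1]; exact e.surjective)).comp
    (H.geG vol Measure.addHaar hx)

variable (h : HM ((KB A)⁻¹ * N)) (vol : HM (KB A)⁻¹) (K : Kah A)

/-- the uniform bound -/
theorem jet_bd (H : Sbm A T π) (hF : ∀ y ∈ T, IsCompact {z | z ∈ T ∧ π z = π y}) {r : ℕ}
    (hr : p + r = n) (F : Frm ((KB A)⁻¹ * N) T σ) {V v : A.ι → M → FI n → ℂ} (hV : IsV N V)
    (hv : IsV N v) {f a : M → ℂ} (hf : ∀ i, HolAt A i T fun x => f x - a x)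
    (rV : ∀ i, ∀ x ∈ T, x ∈ (A.e i).source → prj r (V i x) = (f x * σ i x) • tau A i π x)
    (rv : ∀ i, ∀ x ∈ T, x ∈ (A.e i).source → prj r (v i x) = (a x * σ i x) • tau A i π x)
    {om : M → ℝ} (om0 : ∀ x, 0 ≤ om x) {C D : ℝ} (hD : 0 ≤ D)
    (hom : ∀ᵐ x ∂(vm vol), x ∈ T → om x ≤ C * ‖π x‖ ^ (2 * (p + 1)))
    (hY : ∀ w : MV N, Cs w.1 → dlt h w = 0 → ‖pr K h vol V w.1 - pr K h vol v w.1‖ ^ 2 ≤
      D * ∫ x, om x * (gl vol (inG K h w.1 w.1) x).re ∂(vm vol))
    (θ : ContDiffBump (0 : Cn p)) (hθ : IsCompact {x | x ∈ T ∧ ‖π x‖ ≤ θ.rOut}) :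
    ∃ B : ℝ, ∀ η : ℝ, 0 < η → ∫⁻ x in T, ENNReal.ofReal (‖f x - a x‖ ^ 2 * wgt θ η (π x) *
      (mm h vol K T π σ x / nq h σ x)) ∂(vm vol) ≤ ENNReal.ofReal B := by
  obtain ⟨c, hc⟩ := hθ.exists_bound_of_continuousOn (f := fun x => (nq h σ x)⁻¹) fun x hx =>
    ((F.nq_cont H.opn h hx.1).inv₀ (F.nq_pos h hx.1).ne').continuousWithinAt
  refine ⟨D * (|C| * |c|), fun η hη => ?_⟩
  have h0 : ∀ x, ¬ (x ∈ T ∧ ‖π x‖ ≤ θ.rOut) → x ∈ T → wgt θ η (π x) = 0 := fun x hx hxT => by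
    rw [wgt, θ.zero_of_le_dist (by
      rw [dist_zero_right]; exact le_of_not_ge fun h => hx ⟨hxT, h⟩), zero_mul]
  have hb : Tst A T (fun x => (f x - a x) * (wgt θ η (π x) : ℂ)) {x | x ∈ T ∧ ‖π x‖ ≤ θ.rOut} :=
    ⟨(smT_hol H.opn hf).mul (H.smT_comp fun _ _ => (wgt_cd θ hη).contDiffAt), hθ, fun _ hx => hx.1,
      fun x hx hxT => by rw [h0 x hx hxT, Complex.ofReal_zero, mul_zero]⟩
  have hw := hb.mul (F.smT_inv H.opn h)
  have h1 := hY (fldM H F hw) hw.cs (dlt_fldM H F h hb fun i x hx hi => by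
    obtain ⟨G, hG, hG'⟩ := H.fac hF hf hx
    exact H.eW_dl_comp hx hi (Φ := fun t => G t * (wgt θ η t : ℂ))
      ((hG.differentiableAt.restrictScalars ℝ).mul ((wgt_cd θ hη).differentiable (by simp) _))
      (hG'.mono fun y hy => by rw [hy]))
  rw [fldM_val] at h1
  set β : M → ℂ := fun x => (f x - a x) * (wgt θ η (π x) : ℂ) * ((nq h σ x : ℂ))⁻¹ with hβ
  set J : M → ℝ := T.indicator fun x => ‖f x - a x‖ ^ 2 * wgt θ η (π x) *
    (mm h vol K T π σ x / nq h σ x) with hJ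
  have J0 : ∀ x, 0 ≤ J x := fun x => indicator_nonneg (fun y hy => mul_nonneg
    (mul_nonneg (sq_nonneg _) (wgt_nonneg θ hη _))
    (div_nonneg (mm_nonneg h vol K) (F.nq_pos h hy).le)) x
  have e1 : ∀ x, gl vol (inG K h (fld T π σ β) V) x - gl vol (inG K h (fld T π σ β) v) x =
      (J x : ℂ) := fun x => by
    by_cases hx : x ∈ T
    · rw [gl_pair h vol K hr hx (rV _ x hx (ix_mem x)), gl_pair h vol K hr hx (rv _ x hx (ix_mem x)),
        hJ, indicator_of_mem hx, ← Complex.normSq_eq_norm_sq]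
      push_cast
      rw [Complex.normSq_eq_conj_mul_self, map_sub]
      simp only [hβ]
      ring
    · rw [gl_pair_off h vol K fun h => (hx h).elim, gl_pair_off h vol K fun h => (hx h).elim,
        hJ, indicator_of_notMem hx, sub_zero, Complex.ofReal_zero]
  have i1 : ∀ {V : A.ι → M → FI n → ℂ}, IsV N V →
      Integrable (gl vol (inG K h (fld T π σ β) V)) (vm vol) := fun hV =>
    integrable_of_sm (gl_sm (inG_isD (K := K) h (fld_isV H F hw) hV)) hθ
      fun x hx => gl_pair_off h vol K (hw.off x hx)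
  have i2 : Integrable J (vm vol) :=
    ((i1 hV).sub (i1 hv)).re.congr (Eventually.of_forall fun x => by
      simp only [Pi.sub_apply, e1, RCLike.re_to_complex, Complex.ofReal_re])
  have i0 : 0 ≤ ∫ x, J x ∂(vm vol) := integral_nonneg J0
  rw [pr, pr, ← integral_sub (i1 hV) (i1 hv)] at h1
  simp only [e1] at h1
  rw [integral_complex_ofReal, Complex.norm_real, Real.norm_of_nonneg i0] at h1
  have h2 : ∫ x, om x * (gl vol (inG K h (fld T π σ β) (fld T π σ β)) x).re ∂(vm vol) ≤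
      |C| * |c| * ∫ x, J x ∂(vm vol) := by
    rw [← integral_const_mul]
    refine integral_mono_of_nonneg (Eventually.of_forall fun x => mul_nonneg (om0 x) ?_)
      (i2.const_mul _) ?_
    · rw [gl_fld]
      exact mul_nonneg (sq_nonneg _) (mm_nonneg h vol K)
    · filter_upwards [hom] with x hx
      by_cases hxC : x ∈ T ∧ ‖π x‖ ≤ θ.rOut
      · have k1 := F.nq_pos h hxC.1
        have k2 := wgt_nonneg θ hη (π x)
        have k3 : (nq h σ x)⁻¹ ≤ |c| := (le_abs_self _).trans ((hc x hxC).trans (le_abs_self c))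
        have k4 : om x * wgt θ η (π x) ≤ |C| := by
          refine (mul_le_mul_of_nonneg_right ((hx hxC.1).trans (mul_le_mul_of_nonneg_right
            (le_abs_self C) (by positivity))) k2).trans ?_
          rw [mul_assoc]
          exact mul_le_of_le_one_right (abs_nonneg C) (wgt_le θ hη _)
        have k5 : om x * (‖β x‖ ^ 2 * mm h vol K T π σ x) =
            om x * wgt θ η (π x) * (nq h σ x)⁻¹ * J x := by
          simp only [hβ, hJ, indicator_of_mem hxC.1, norm_mul, norm_inv, Complex.norm_real,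
            Real.norm_of_nonneg k1.le, Real.norm_of_nonneg k2]
          ring
        rw [gl_fld, k5]
        exact mul_le_mul_of_nonneg_right
          (mul_le_mul k4 k3 (inv_nonneg.2 k1.le) (abs_nonneg C)) (J0 x)
      · rw [gl_pair_off h vol K (hw.off x hxC), Complex.zero_re, mul_zero]
        exact mul_nonneg (by positivity) (J0 x)
  have h3 : ∫ x, J x ∂(vm vol) ≤ D * (|C| * |c|) :=
    Abs.le_of_sq_le_mul i0 (by positivity) (h1.trans (by
      rw [mul_assoc D]; exact mul_le_mul_of_nonneg_left h2 hD))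
  refine le_trans ?_ (ENNReal.ofReal_le_ofReal h3)
  rw [ofReal_integral_eq_lintegral_ofReal i2 (Eventually.of_forall J0)]
  refine le_trans (le_of_eq (lint_congr_on H.opn subset_rfl fun x hx => ?_))
    (setLIntegral_le_lintegral T _)
  rw [hJ, indicator_of_mem hx]

/-- **the end of JET** -/
theorem jet_end (H : Tub A T π) (hp : 1 ≤ p) {r : ℕ} (hr : p + r = n)
    (F : Frm ((KB A)⁻¹ * N) T σ) {V v : A.ι → M → FI n → ℂ} (hV : IsV N V) (hv : IsV N v)
    {r₀ : ℝ} (h0 : 0 < r₀) {f a : M → ℂ}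
    (hf : ∀ i, HolAt A i {x | x ∈ T ∧ ‖π x‖ < r₀} fun x => f x - a x)
    (rV : ∀ i, ∀ x ∈ T, ‖π x‖ < r₀ → x ∈ (A.e i).source →
      prj r (V i x) = (f x * σ i x) • tau A i π x)
    (rv : ∀ i, ∀ x ∈ T, ‖π x‖ < r₀ → x ∈ (A.e i).source →
      prj r (v i x) = (a x * σ i x) • tau A i π x)
    {om : M → ℝ} (om0 : ∀ x, 0 ≤ om x) {C D : ℝ} (hD : 0 ≤ D)
    (hom : ∀ᵐ x ∂(vm vol), x ∈ T → π x ≠ 0 → ‖π x‖ < r₀ → om x ≤ C * ‖π x‖ ^ (2 * (p + 1)))
    (hY : ∀ w : MV N, Cs w.1 → dlt h w = 0 → ‖pr K h vol V w.1 - pr K h vol v w.1‖ ^ 2 ≤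
      D * ∫ x, om x * (gl vol (inG K h w.1 w.1) x).re ∂(vm vol))
    {x₀ : M} (hx : x₀ ∈ T) (hπ : π x₀ = 0) :
    f x₀ = a x₀ ∧ ∀ i, x₀ ∈ (A.e i).source → ∀ k, dl A i k (fun x => f x - a x) x₀ = 0 := by
  set U : Set M := {x | x ∈ T ∧ ‖π x‖ < r₀} with hU
  have hUo : IsOpen U := H.cont.norm.isOpen_inter_preimage H.opn isOpen_Iio
  have H' : Sbm A U π := H.toSbm.mono hUo fun _ h => h.1
  have F' := F.mono (T' := U) fun _ h => h.1
  have hxU : x₀ ∈ U := ⟨hx, by rwa [hπ, norm_zero]⟩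
  have hF : ∀ y ∈ U, IsCompact {z | z ∈ U ∧ π z = π y} := fun y hy => by
    convert H.fib y hy.1 using 1
    ext z
    exact ⟨fun h => ⟨h.1.1, h.2⟩, fun h => ⟨⟨h.1, by rw [h.2]; exact hy.2⟩, h.2⟩⟩
  have hρ : 0 < min r₀ 1 := lt_min h0 one_pos
  let θ : ContDiffBump (0 : Cn p) := ⟨min r₀ 1 / 4, min r₀ 1 / 2, by positivity, by linarith⟩
  have hθ : IsCompact {x | x ∈ U ∧ ‖π x‖ ≤ θ.rOut} := by
    convert H.prop (min r₀ 1 / 2) (by linarith [min_le_right r₀ 1]) using 1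
    ext z
    exact ⟨fun h => ⟨h.1.1, h.2⟩, fun h => ⟨⟨h.1, by linarith [min_le_left r₀ 1, h.2]⟩, h.2⟩⟩
  obtain ⟨B, hB⟩ := jet_bd h vol K H' hF hr F' hV hv hf (fun i x hx => rV i x hx.1 hx.2)
    (fun i x hx => rv i x hx.1 hx.2) om0 (C := C) hD (by
      filter_upwards [hom, measure_eq_zero_iff_ae_notMem.1
        (H.fib_null hp vol (c := 0) (by simp))] with x h1 h2 h3
      exact h1 h3.1 (fun h4 => h2 ⟨h3.1, h4⟩) h3.2) hY θ hθ
  obtain ⟨G, hG, hG'⟩ := H'.fac hF hf hxU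
  have hm : 0 < mm h vol K U π σ x₀ / nq h σ x₀ :=
    div_pos (mm_pos h vol K H' F' hxU) (F'.nq_pos h hxU)
  have hc : ContinuousAt (fun x => mm h vol K U π σ x / nq h σ x) x₀ :=
    (mm_cont h vol K H' F' hxU).div (F'.nq_cont hUo h hxU) (F'.nq_pos h hxU).ne'
  set m := mm h vol K U π σ x₀ / nq h σ x₀ / 2 with hm'
  have hm0 : 0 < m := half_pos hm
  obtain ⟨O, hO, hOo, hOx⟩ := _root_.mem_nhds_iff.1 ((hG'.and (hUo.mem_nhds hxU)).and
    ((hc.eventually (lt_mem_nhds (half_lt_self hm))).and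
      ((H.contAt hx).eventually (by rw [hπ]; exact closedBall_mem_nhds _ θ.rIn_pos :
        ∀ᶠ t in 𝓝 (π x₀), t ∈ closedBall (0 : Cn p) θ.rIn))))
  obtain ⟨W, hW, C', hC', hle⟩ := H'.geG_of vol hxU O (hOo.mem_nhds hOx)
  rw [hπ] at hW hG
  obtain ⟨k1, k2⟩ := jet_base hp hG.differentiableAt hW
    (B := C' * (ENNReal.ofReal m⁻¹ * ENNReal.ofReal B))
    (ENNReal.mul_lt_top hC' (ENNReal.mul_lt_top ENNReal.ofReal_lt_top ENNReal.ofReal_lt_top))
    fun η hη => by
      refine (hle _).trans (mul_le_mul_right (le_trans ?_ (mul_le_mul_right (hB η hη) _)) _)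
      rw [← lintegral_const_mul' _ _ ENNReal.ofReal_ne_top]
      refine le_trans (lint_mono_on hOo.measurableSet subset_rfl fun x hx => ?_)
        (lintegral_mono_set fun x hx => (hO hx).1.2)
      obtain ⟨⟨a1, -⟩, a2, a3⟩ := hO hx
      rw [← ENNReal.ofReal_mul (inv_nonneg.2 hm0.le), WithLp.toLp_ofLp, a1, wgt,
        θ.one_of_mem_closedBall a3, one_mul, mul_left_comm]
      refine ENNReal.ofReal_le_ofReal (le_mul_of_one_le_right (by positivity) ?_)
      rw [← div_eq_inv_mul, le_div_iff₀ hm0, one_mul]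
      exact a2.le
  refine ⟨sub_eq_zero.1 (hG'.self_of_nhds.trans (by rw [hπ, k1])), fun i hi k => ?_⟩
  rw [H.dl_comp hx hi (by rw [hπ]; exact hG.differentiableAt.restrictScalars ℝ) hG', hπ]
  refine Finset.sum_eq_zero fun l _ => ?_
  rw [dj_holo hG.differentiableAt, k2, _root_.zero_apply, zero_mul]

end

end Crest.Agent.X261.Jet.Tb
end

-- ▼ part X261/Jet/TbH

/-!
# Row 261, JET/Tube (helper66), file `TbH`: the inputs of the two steps of JET

* `Tub.exists_theta` : a smooth function which is `‖π‖²` near the central fibre;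
* `Tub.posE`         : `S - φ` is very negative on a set of positive measure;
* `isV_prV`, `memLp_prV` : homogeneous parts;
* `Tub.exists_v1`    : the datum of the first step;
* `Eps.rep`          : `s ε₀ = (s / u^(k+1)) u^k tau`.
-/

set_option autoImplicit false
set_option linter.unusedSectionVars false

open Set Filter Topology Complex Matrix MeasureTheory Metric
open scoped ContDiff Matrix ComplexConjugate ENNReal InnerProductSpace

namespace Crest.Agent.X261.Jet.Tb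

open Crest.Agent.R275 Crest.Agent.R275.Geo Crest.Agent.R275.Core144
open Crest.Agent.R275.OmT75 (dl dj dj_holo)
open Crest.Agent.R273.Defs_333 Crest.Agent.R273.Fock_243 Crest.Agent.R273.Vm_333
open Crest.Agent.R273.Kah_333
open Crest.Agent.R273.Berezin_505 (Sb Sbi)
open Crest.Agent.R273.DVec_733 (MV)
open Crest.Agent.R273.DMetB_733 (dlt isV)
open Crest.Agent.R273.BKNa_37 (IsV dbV)
open Crest.Agent.R273.BKNb_37 (inG)
open Crest.Agent.R273.BKNc_37 (inG_isD)
open Crest.Agent.T223.Hm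
open Crest.Agent.X261.Jet.Fr

noncomputable section

variable {n p : ℕ} {M : Type} [TopologicalSpace M] {A : Atl n M} {T : Set M} {π : M → Cn p}
  {L N : LB A} {σ : A.ι → M → ℂ} {i : A.ι} {x : M}

/-! ### the function `‖π‖²` -/

theorem Sbm.hq_sq (H : Sbm A T π) (hx : x ∈ T) (hi : x ∈ (A.e i).source) {θ : M → ℝ}
    (hθ : θ =ᶠ[𝓝 x] fun y => ‖π y‖ ^ 2) (ξ : Fin n → ℂ) :
    hq (hsf A θ i x) ξ = ∑ k, ‖∑ a, dp A i π x k a * ξ a‖ ^ 2 := by
  have h1 : hsf A θ i x = Matrix.of fun a b => ∑ k, dp A i π x k a * conj (dp A i π x k b) := by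
    have h2 : (fun z => θ ((A.e i).symm z)) =ᶠ[𝓝 (A.e i x)]
        Crest.Agent.R273.FS_333.sq fun z k => π ((A.e i).symm z) k :=
      (ev_read (P := fun y => θ y = ‖π y‖ ^ 2) hi hθ).mono fun z hz =>
        hz.trans (EuclideanSpace.norm_sq_eq _)
    have h3 : ∀ k a, fderiv ℂ (fun z => π ((A.e i).symm z) k) (A.e i x)
        (EuclideanSpace.single a 1) = dp A i π x k a := fun k a =>
      (dj_holo ((H.holAt i k).diffAt H.opn hi hx)).symm
    ext a b
    rw [hsf, Crest.Agent.R273.HessB_333.hess_congr h2,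
      Crest.Agent.R273.FS_333.hess_sq (isOpen_ti H.opn) (fun k => H.holAt i k) (mem_ti hx hi)]
    simp only [h3, Matrix.of_apply]
  have h4 : star ξ ⬝ᵥ ((hsf A θ i x)ᵀ *ᵥ ξ) =
      ∑ k, (∑ a, dp A i π x k a * ξ a) * conj (∑ a, dp A i π x k a * ξ a) := by
    simp only [h1, dotProduct, Matrix.mulVec, Matrix.transpose_apply, Matrix.of_apply, map_sum,
      Finset.mul_sum, Finset.sum_mul, Pi.star_apply, map_mul, RCLike.star_def]
    rw [Finset.sum_comm (s := Finset.univ (α := Fin p))]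
    refine Finset.sum_congr rfl fun b _ => ?_
    rw [Finset.sum_comm (s := Finset.univ (α := Fin p))]
    exact Finset.sum_congr rfl fun a _ => Finset.sum_congr rfl fun k _ => by ring
  rw [hq, h4, Complex.re_sum]
  refine Finset.sum_congr rfl fun k _ => ?_
  rw [Complex.mul_conj, Complex.ofReal_re, Complex.normSq_eq_norm_sq]

theorem Tub.isOpen_lt (H : Tub A T π) (r : ℝ) : IsOpen {x | x ∈ T ∧ ‖π x‖ < r} :=
  H.cont.norm.isOpen_inter_preimage H.opn isOpen_Iio

theorem exp_le {t s c C k : ℝ} {m : ℕ} (ht : 0 < t) (ht1 : t ≤ 1) (hk : 0 ≤ k)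
    (hm : (m : ℝ) ≤ k * c) (hs : s ≤ c * Real.log t + C) :
    Real.exp (k * s) ≤ Real.exp (k * C) * t ^ m := by
  rw [← Real.exp_log (pow_pos ht m), ← Real.exp_add, Real.log_pow]
  refine Real.exp_le_exp.2 ?_
  have h1 := mul_le_mul_of_nonneg_left hs hk
  have h2 := mul_le_mul_of_nonpos_right hm (Real.log_nonpos ht.le ht1)
  linarith

/-- the frame `u^k` and the section `s` -/
theorem Eps.rep [Countable A.ι] {e : A.ι → M → FI n → ℂ} {u s : A.ι → M → ℂ}
    (E : Eps L T π e u) {k : ℕ} {L1 : LB A}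
    (hL : ∀ i j, ∀ x ∈ (A.e i).source ∩ (A.e j).source, L1.g i j x = L.g i j x ^ (k + 1))
    (hs : IsHS L1 univ s) (hx : x ∈ T) (hi : x ∈ (A.e i).source) :
    s i x • (Sbi ℂ n *ᵥ e i x) =
      (qt s (fun i x => u i x ^ (k + 1)) x * u i x ^ k) • tau A i π x := by
  rw [(E.frm.pow (k + 1) hL).qt_eq (fun i j x _ hij => hs.tr i j x hij (mem_univ x)) hx hi, tau,
    E.eq i x hx hi, Matrix.mulVec_smul, smul_smul]
  congr 1
  have := E.frm.ne i x hx hi
  field_simp
  ring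

theorem Eps.qt_hol [Countable A.ι] {e : A.ι → M → FI n → ℂ} {u s : A.ι → M → ℂ}
    (E : Eps L T π e u) {k : ℕ} {L1 : LB A}
    (hL : ∀ i j, ∀ x ∈ (A.e i).source ∩ (A.e j).source, L1.g i j x = L.g i j x ^ k)
    (hs : IsHS L1 univ s) (i : A.ι) : HolAt A i T (qt s fun i x => u i x ^ k) :=
  (E.frm.pow k hL).qt_hol (fun i => (hs.hol i).mono (subset_univ T))
    (fun i j x _ hij => hs.tr i j x hij (mem_univ x)) i

theorem Sbm.hol_comp (H : Sbm A T π) {a : Cn p → ℂ} (ha : Differentiable ℂ a) (i : A.ι) :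
    HolAt A i T fun x => a (π x) := ha.comp_differentiableOn (H.hol i)

theorem Sbm.contOn_dp (H : Sbm A T π) (i : A.ι) (k : Fin p) :
    ContinuousOn (fun x => dp A i π x k) (T ∩ (A.e i).source) :=
  continuousOn_pi.2 fun a _ hy => ContinuousAt.continuousWithinAt
    (cont_of_chart hy.2 (sa_hol (H.dp_hol i k a) H.opn hy.2 hy.1).continuousAt)

/-! ### homogeneous parts -/




variable [T2Space M]

theorem Tub.sm_ext (H : Tub A T π) {W : Type*} [NormedAddCommGroup W] [NormedSpace ℝ W]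
    {Φ : Cn p → W} (hΦ : ContDiff ℝ ∞ Φ) {ρ : ℝ} (hρ : ρ < 1) (h0 : ∀ t, ρ < ‖t‖ → Φ t = 0) :
    A.Sm (T.indicator fun x => Φ (π x)) := fun i z hz => by
  have hi := (A.e i).map_target hz
  refine ContDiffAt.contDiffWithinAt ?_
  rw [← (A.e i).right_inv hz]
  by_cases hx : (A.e i).symm z ∈ T
  · refine (hΦ.contDiffAt.comp _ (((H.anAt hx hi).contDiffAt (n := ∞)).restrict_scalars
      ℝ)).congr_of_eventuallyEq ?_
    exact (ev_read (P := fun y => y ∈ T) hi (H.opn.mem_nhds hx)).mono fun w hw =>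
      indicator_of_mem hw _
  · refine (contDiffAt_const (c := (0 : W))).congr_of_eventuallyEq ?_
    refine (ev_read (P := fun y => y ∈ {y | y ∈ T ∧ ‖π y‖ ≤ ρ}ᶜ) hi
      ((H.prop ρ hρ).isClosed.isOpen_compl.mem_nhds fun h => hx h.1)).mono fun w hw => ?_
    exact indicator_apply_eq_zero.2 fun h1 => h0 _ (not_le.1 fun h2 => hw ⟨h1, h2⟩)

/-- **the function `θ` of the second step** -/
theorem Tub.exists_theta (H : Tub A T π) {ρ : ℝ} (h0 : 0 < ρ) (h1 : ρ < 1) :
    ∃ θ : M → ℝ, A.Sm θ ∧ (∀ x, 0 ≤ θ x) ∧ (∀ x, θ x ≤ 1) ∧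
      ∀ i, ∀ x ∈ (A.e i).source, x ∈ T → ‖π x‖ < ρ → ∀ ξ : Fin n → ℂ,
        0 ≤ hq (hsf A θ i x) ξ ∧ ∀ j, ‖∑ a, dp A i π x j a * ξ a‖ ^ 2 ≤ hq (hsf A θ i x) ξ := by
  let β : ContDiffBump (0 : Cn p) := ⟨ρ, (ρ + 1) / 2, h0, by linarith⟩
  refine ⟨T.indicator fun x => β (π x) * ‖π x‖ ^ 2,
    H.sm_ext (Φ := fun t => β t * ‖t‖ ^ 2) (β.contDiff.mul (contDiff_norm_sq ℝ))
      (ρ := (ρ + 1) / 2) (by linarith) fun t ht => ?_,
    indicator_nonneg fun x _ => mul_nonneg β.nonneg (sq_nonneg _),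
    fun x => indicator_apply_le' (fun hx => mul_le_one₀ β.le_one (sq_nonneg _)
      (pow_le_one₀ (norm_nonneg _) (H.lt x hx).le)) fun _ => zero_le_one, fun i x hi hx hρ ξ => ?_⟩
  · rw [β.zero_of_le_dist (by rw [dist_zero_right]; exact ht.le), zero_mul]
  · rw [H.hq_sq hx hi]
    · exact ⟨Finset.sum_nonneg fun _ _ => sq_nonneg _, fun j => Finset.single_le_sum
        (f := fun k => ‖∑ a, dp A i π x k a * ξ a‖ ^ 2) (fun _ _ => sq_nonneg _)
        (Finset.mem_univ j)⟩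
    · filter_upwards [(H.isOpen_lt ρ).mem_nhds ⟨hx, hρ⟩] with y hy
      rw [indicator_of_mem hy.1, β.one_of_mem_closedBall (mem_closedBall_zero_iff.2 hy.2.le),
        one_mul]

variable [Countable A.ι] [MeasurableSpace M] [BorelSpace M]



/-- **the datum of the first step** -/
theorem Tub.exists_v1 (H : Tub A T π) {r : ℕ} (hr : p + r = n) (F : Frm ((KB A)⁻¹ * N) T σ)
    (h : HM ((KB A)⁻¹ * N)) (vol : HM (KB A)⁻¹) (K : Kah A) {a : Cn p → ℂ}
    (ha : Differentiable ℂ a) {r₁ r₀ : ℝ} (h0 : 0 < r₁) (h1 : r₁ < r₀) (h2 : r₀ < 1) :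
    ∃ v : MV N, Cs v.1 ∧
      (∀ i, ∀ x ∈ {x | x ∈ T ∧ ‖π x‖ < r₁}, x ∈ (A.e i).source → ∀ k, dbV v.1 i k x = 0) ∧
      (∀ i, ∀ x ∈ T, ‖π x‖ < r₁ → x ∈ (A.e i).source →
        prj r (v.1 i x) = (a (π x) * σ i x) • tau A i π x) ∧
      ∀ u : M → ℝ, IntegrableOn u {x | x ∈ T ∧ ‖π x‖ ≤ r₀} (vm vol) →
        Integrable (fun x => u x * (gl vol (inG K h v.1 v.1) x).re) (vm vol) := by
  let β : ContDiffBump (0 : Cn p) := ⟨r₁, r₀, h0, h1⟩
  have hb : Tst A T (fun x => a (π x) * (β (π x) : ℂ)) {x | x ∈ T ∧ ‖π x‖ ≤ r₀} :=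
    ⟨(smT_hol H.opn (H.hol_comp ha)).mul (H.smT_comp (Φ := fun t => (β t : ℂ)) fun _ _ =>
      (Complex.ofRealCLM.contDiff.comp β.contDiff).contDiffAt), H.prop r₀ h2, fun _ hx => hx.1,
      fun x hx hxT => by
        rw [β.zero_of_le_dist (by
          rw [dist_zero_right]; exact le_of_not_ge fun h => hx ⟨hxT, h⟩), Complex.ofReal_zero,
          mul_zero]⟩
  have e : ∀ x, ‖π x‖ < r₁ → a (π x) * (β (π x) : ℂ) = a (π x) := fun x hx => by
    rw [β.one_of_mem_closedBall (mem_closedBall_zero_iff.2 hx.le), Complex.ofReal_one, mul_one]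
  refine ⟨fldM H.toSbm F hb, hb.cs, fun i x hx hi k => ?_, fun i x hx hρ hi => ?_, fun u hu => ?_⟩
  · exact dbV_fld H.toSbm F (H.isOpen_lt r₁) (fun _ h => h.1)
      (((H.hol_comp ha i).mono fun _ h => h.1).congr fun y _ hy => (e y hy.2).symm) hx hi k
  · rw [fldM_val, (dg_fld hr).prj_eq, fld_eq hx hi, e x hρ]
  · have h3 := isV (fldM H.toSbm F hb)
    refine (hu.mul_continuousOn (Complex.continuous_re.comp (sm_continuous
      (gl_sm (vol := vol) (inG_isD (K := K) h h3 h3)))).continuousOn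
      hb.cpt).integrable_of_forall_notMem_eq_zero fun x hx => ?_
    rw [Function.comp_apply, fldM_val, gl_pair_off h vol K (hb.off x hx), Complex.zero_re,
      mul_zero]

/-- **`S - φ` is very negative on a set of positive measure** -/
theorem Tub.posE (H : Tub A T π) (hp : 1 ≤ p) (vol : HM (KB A)⁻¹) {x₀ : M} (hx : x₀ ∈ T)
    (hπ : π x₀ = 0) {C : Set M} (hC : C ∈ 𝓝 x₀) {φ S : M → ℝ} {k c C' r₀ : ℝ} (hk : 0 ≤ k)
    (hkc : ((2 * (p + 1) : ℕ) : ℝ) ≤ k * c) (h0 : 0 < r₀)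
    (hS : ∀ᵐ x ∂(vm vol), x ∈ T → π x ≠ 0 → ‖π x‖ ≤ r₀ → S x ≤ c * Real.log ‖π x‖ + C')
    (hint : IntegrableOn (fun x => Real.exp (-(k * φ x))) {x | x ∈ T ∧ ‖π x‖ ≤ r₀} (vm vol))
    (B : ℝ) : vm vol (C ∩ {x | S x - φ x < B}) ≠ 0 := by
  intro hE
  obtain ⟨O, hO, hOo, hOx⟩ := _root_.mem_nhds_iff.1 (inter_mem hC
    ((H.isOpen_lt r₀).mem_nhds ⟨hx, by rwa [hπ, norm_zero]⟩))
  obtain ⟨W, hW, C₁, hC₁, hle⟩ := H.geG_of vol hx O (hOo.mem_nhds hOx)
  rw [hπ] at hW
  refine one_ne_zero (jet_base hp (G := fun _ => 1) (differentiableAt_const _) hW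
    (B := C₁ * (ENNReal.ofReal (Real.exp (k * C') * Real.exp (-(k * B))) *
      ∫⁻ x in {x | x ∈ T ∧ ‖π x‖ ≤ r₀}, ENNReal.ofReal (Real.exp (-(k * φ x))) ∂(vm vol)))
    (ENNReal.mul_lt_top hC₁ (ENNReal.mul_lt_top ENNReal.ofReal_lt_top hint.lintegral_lt_top))
    fun η hη => ?_).1
  refine (hle _).trans (mul_le_mul_right ?_ _)
  rw [← lintegral_const_mul' _ _ ENNReal.ofReal_ne_top]
  refine le_trans (lintegral_mono_ae ?_)
    (lintegral_mono_set fun x hx => ⟨(hO hx).2.1, (hO hx).2.2.le⟩)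
  filter_upwards [ae_restrict_mem hOo.measurableSet, ae_restrict_of_ae hS,
    ae_restrict_of_ae (measure_eq_zero_iff_ae_notMem.1 hE), ae_restrict_of_ae
      (measure_eq_zero_iff_ae_notMem.1 (H.fib_null hp vol (c := 0) (by simp)))] with x a1 a2 a3 a4
  obtain ⟨b1, b2, b3⟩ := hO a1
  have b4 : π x ≠ 0 := fun h => a4 ⟨b2, h⟩
  have b5 := exp_le (norm_pos_iff.2 b4) (H.lt x b2).le hk hkc (a2 b2 b4 b3.le)
  have b6 : B ≤ S x - φ x := not_lt.1 fun h => a3 ⟨b1, h⟩
  have b7 : 1 ≤ Real.exp (k * S x) * (Real.exp (-(k * B)) * Real.exp (-(k * φ x))) := by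
    rw [← Real.exp_add, ← Real.exp_add]
    refine Real.one_le_exp ?_
    have := mul_le_mul_of_nonneg_left b6 hk
    linarith
  rw [← ENNReal.ofReal_mul (by positivity), WithLp.toLp_ofLp, norm_one, one_pow, one_mul]
  refine ENNReal.ofReal_le_ofReal ?_
  rw [inv_le_iff_one_le_mul₀ (by positivity)]
  refine b7.trans ((mul_le_mul_of_nonneg_right b5 (by positivity)).trans ?_)
  have b8 : ‖π x‖ ^ (2 * (p + 1)) ≤ (‖π x‖ ^ 2 + η) ^ (p + 1) := by
    rw [pow_mul]
    exact pow_le_pow_left₀ (sq_nonneg _) (le_add_of_nonneg_right hη.le) _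
  refine le_trans (le_of_eq ?_) (mul_le_mul_of_nonneg_left b8 (by positivity))
  ring

end

end Crest.Agent.X261.Jet.Tb
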